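import Vale.Agent.Lib.P322.Pot.Mid.Consts

/-!
P322, potential method, range `7/10 ≤ ρ ≤ 4/5`.  Numerical facts about `Lam ρ`.
-/

namespace Vale.Agent.Lib.P322.Pot

open Real Set Vale.Agent.Lib.P322

/-- the truncated series (eight terms) on `[0,1]` -/
lemma Lam_poly8_le_aux {t : ℝ} (h0 : 0 ≤ t) (h1 : t ≤ 1) :
    t ^ 2 / 2 + t ^ 4 / 12 + t ^ 6 / 30 + t ^ 8 / 56 + t ^ 10 / 90 + t ^ 12 / 132
      + t ^ 14 / 182 + t ^ 16 / 240 ≤ Lam t := by
  have key : ∀ s ∈ Icc (0:ℝ) 1, 0 ≤ Lam s -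
      (s ^ 2 / 2 + s ^ 4 / 12 + s ^ 6 / 30 + s ^ 8 / 56 + s ^ 10 / 90 + s ^ 12 / 132
        + s ^ 14 / 182 + s ^ 16 / 240) := by
    apply nonneg_Icc_of_Ico
    · exact continuous_Lam.sub (by fun_prop)
    · apply nonneg_of_deriv2
        (D1 := fun s => Lam1 s - (s + s ^ 3 / 3 + s ^ 5 / 5 + s ^ 7 / 7 + s ^ 9 / 9 + s ^ 11 / 11
          + s ^ 13 / 13 + s ^ 15 / 15))
        (D2 := fun s => (1 / (1 - s ^ 2)) - (1 + s ^ 2 + s ^ 4 + s ^ 6 + s ^ 8 + s ^ 10
          + s ^ 12 + s ^ 14))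
      · intro s hs
        have a := (hasDerivAt_Lam (t := s) (by linarith [hs.1]) hs.2)
        have b : HasDerivAt (fun s : ℝ => s ^ 2 / 2 + s ^ 4 / 12 + s ^ 6 / 30 + s ^ 8 / 56
            + s ^ 10 / 90 + s ^ 12 / 132 + s ^ 14 / 182 + s ^ 16 / 240)
            (s + s ^ 3 / 3 + s ^ 5 / 5 + s ^ 7 / 7 + s ^ 9 / 9 + s ^ 11 / 11
              + s ^ 13 / 13 + s ^ 15 / 15) s := by
          have e := ((((((((hasDerivAt_id s).pow 2).div_const 2).add
            (((hasDerivAt_id s).pow 4).div_const 12)).add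
            (((hasDerivAt_id s).pow 6).div_const 30)).add
            (((hasDerivAt_id s).pow 8).div_const 56)).add
            (((hasDerivAt_id s).pow 10).div_const 90)).add
            (((hasDerivAt_id s).pow 12).div_const 132)).add
            (((hasDerivAt_id s).pow 14).div_const 182) |>.add
            (((hasDerivAt_id s).pow 16).div_const 240)
          refine e.congr_deriv ?_
          simp only [id]
          norm_num
          ring
        exact a.sub b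
      · intro s hs
        have a := (hasDerivAt_Lam1 (t := s) (by linarith [hs.1]) hs.2)
        have b : HasDerivAt (fun s : ℝ => s + s ^ 3 / 3 + s ^ 5 / 5 + s ^ 7 / 7 + s ^ 9 / 9
            + s ^ 11 / 11 + s ^ 13 / 13 + s ^ 15 / 15)
            (1 + s ^ 2 + s ^ 4 + s ^ 6 + s ^ 8 + s ^ 10 + s ^ 12 + s ^ 14) s := by
          have e := (((((((hasDerivAt_id s).add
            (((hasDerivAt_id s).pow 3).div_const 3)).add
            (((hasDerivAt_id s).pow 5).div_const 5)).add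
            (((hasDerivAt_id s).pow 7).div_const 7)).add
            (((hasDerivAt_id s).pow 9).div_const 9)).add
            (((hasDerivAt_id s).pow 11).div_const 11)).add
            (((hasDerivAt_id s).pow 13).div_const 13)).add
            (((hasDerivAt_id s).pow 15).div_const 15)
          refine e.congr_deriv ?_
          simp only [id]
          norm_num
        exact a.sub b
      · intro s hs
        have hs2 : 0 < 1 - s ^ 2 := by nlinarith [hs.1, hs.2]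
        have : 1 + s ^ 2 + s ^ 4 + s ^ 6 + s ^ 8 + s ^ 10 + s ^ 12 + s ^ 14 ≤ 1 / (1 - s ^ 2) := by
          rw [le_div_iff₀ hs2]
          have h16 : 0 ≤ s ^ 16 := by positivity
          nlinarith
        linarith
      · simp
      · simp
  have := key t ⟨h0, h1⟩
  linarith

/-- Eight terms of the series.  Same proof as `Lam_poly_le_aux` / `Lam_poly_le` (file `Series.lean`). -/
lemma Lam_poly8_le {t : ℝ} (h0 : -1 ≤ t) (h1 : t ≤ 1) :
    t ^ 2 / 2 + (t ^ 2) ^ 2 / 12 + (t ^ 2) ^ 3 / 30 + (t ^ 2) ^ 4 / 56 + (t ^ 2) ^ 5 / 90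
      + (t ^ 2) ^ 6 / 132 + (t ^ 2) ^ 7 / 182 + (t ^ 2) ^ 8 / 240 ≤ Lam t := by
  rcases le_total 0 t with h | h
  · have := Lam_poly8_le_aux h h1
    calc _ = t ^ 2 / 2 + t ^ 4 / 12 + t ^ 6 / 30 + t ^ 8 / 56 + t ^ 10 / 90 + t ^ 12 / 132
          + t ^ 14 / 182 + t ^ 16 / 240 := by ring
      _ ≤ _ := this
  · have := Lam_poly8_le_aux (t := -t) (by linarith) (by linarith)
    rw [Lam_neg] at this
    calc _ = (-t) ^ 2 / 2 + (-t) ^ 4 / 12 + (-t) ^ 6 / 30 + (-t) ^ 8 / 56 + (-t) ^ 10 / 90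
          + (-t) ^ 12 / 132 + (-t) ^ 14 / 182 + (-t) ^ 16 / 240 := by ring
      _ ≤ _ := this

/-- Same proof as `Lam_upper_poly` (file `Mid/Consts.lean`): the second derivative of the difference is
`1 + s^2 + s^4 + s^6 + s^8 + (132/47) s^10 - 1/(1-s^2) ≥ 0` for `s^2 ≤ 16/25`, because `1/(1 - s^2) ≤ 25/9 ≤ 132/47`. -/
lemma Lam_upper_poly_hi {t : ℝ} (h0 : 0 ≤ t) (h1 : t ≤ 4 / 5) :
    Lam t ≤ t ^ 2 / 2 + t ^ 4 / 12 + t ^ 6 / 30 + t ^ 8 / 56 + t ^ 10 / 90 + t ^ 12 / 47 := by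
  have key : ∀ s ∈ Ico (0:ℝ) (802 / 1000), 0 ≤
      (s ^ 2 / 2 + s ^ 4 / 12 + s ^ 6 / 30 + s ^ 8 / 56 + s ^ 10 / 90 + s ^ 12 / 47) - Lam s := by
    apply nonneg_of_deriv2'
      (D1 := fun s => (s + s ^ 3 / 3 + s ^ 5 / 5 + s ^ 7 / 7 + s ^ 9 / 9 + 12 * s ^ 11 / 47) - Lam1 s)
      (D2 := fun s => (1 + s ^ 2 + s ^ 4 + s ^ 6 + s ^ 8 + 132 * s ^ 10 / 47) - (1 / (1 - s ^ 2)))
    · intro s hs
      have a := (hasDerivAt_Lam (t := s) (by linarith [hs.1]) (by linarith [hs.2]))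
      have b : HasDerivAt (fun s : ℝ => s ^ 2 / 2 + s ^ 4 / 12 + s ^ 6 / 30 + s ^ 8 / 56
          + s ^ 10 / 90 + s ^ 12 / 47)
          (s + s ^ 3 / 3 + s ^ 5 / 5 + s ^ 7 / 7 + s ^ 9 / 9 + 12 * s ^ 11 / 47) s := by
        have e := ((((((hasDerivAt_id s).pow 2).div_const 2).add
          (((hasDerivAt_id s).pow 4).div_const 12)).add
          (((hasDerivAt_id s).pow 6).div_const 30)).add
          (((hasDerivAt_id s).pow 8).div_const 56)).add
          (((hasDerivAt_id s).pow 10).div_const 90) |>.add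
          (((hasDerivAt_id s).pow 12).div_const 47)
        refine e.congr_deriv ?_
        simp only [id]
        norm_num
        ring
      exact b.sub a
    · intro s hs
      have a := (hasDerivAt_Lam1 (t := s) (by linarith [hs.1]) (by linarith [hs.2]))
      have b : HasDerivAt (fun s : ℝ => s + s ^ 3 / 3 + s ^ 5 / 5 + s ^ 7 / 7 + s ^ 9 / 9
          + 12 * s ^ 11 / 47) (1 + s ^ 2 + s ^ 4 + s ^ 6 + s ^ 8 + 132 * s ^ 10 / 47) s := by
        have e := (((((hasDerivAt_id s).add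
          (((hasDerivAt_id s).pow 3).div_const 3)).add
          (((hasDerivAt_id s).pow 5).div_const 5)).add
          (((hasDerivAt_id s).pow 7).div_const 7)).add
          (((hasDerivAt_id s).pow 9).div_const 9)).add
          ((((hasDerivAt_id s).pow 11).const_mul 12).div_const 47)
        refine e.congr_deriv ?_
        simp only [id]
        norm_num
        ring
      exact b.sub a
    · intro s hs
      have hsq : s ^ 2 ≤ 6433 / 10000 := by nlinarith [hs.1, hs.2]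
      have hs2 : 0 < 1 - s ^ 2 := by linarith
      have : 1 / (1 - s ^ 2) ≤ 1 + s ^ 2 + s ^ 4 + s ^ 6 + s ^ 8 + 132 * s ^ 10 / 47 := by
        rw [div_le_iff₀ hs2]
        have h10 : 0 ≤ s ^ 10 * (132 / 47 * (1 - s ^ 2) - 1) :=
          mul_nonneg (by positivity) (by linarith)
        nlinarith
      linarith
    · simp
    · simp
  have := key t ⟨h0, by linarith⟩
  linarith

/-- tangent line bound for powers -/
lemma pow_tangent_hi {a z : ℝ} (ha : 0 ≤ a) (hz : 0 ≤ z) (k : ℕ) :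
    a ^ (k + 1) + ((k : ℝ) + 1) * a ^ k * (z - a) ≤ z ^ (k + 1) := by
  induction k with
  | zero => simp
  | succ k ih =>
    have h1 := mul_le_mul_of_nonneg_left ih hz
    have h2 : 0 ≤ ((k : ℝ) + 1) * a ^ k * (z - a) ^ 2 := by positivity
    push_cast
    calc a ^ (k + 1 + 1) + ((k : ℝ) + 1 + 1) * a ^ (k + 1) * (z - a)
        = z * (a ^ (k + 1) + ((k : ℝ) + 1) * a ^ k * (z - a))
            - ((k : ℝ) + 1) * a ^ k * (z - a) ^ 2 := by ring
      _ ≤ z * z ^ (k + 1) := by linarith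
      _ = z ^ (k + 1 + 1) := by ring

/-- With `z = ρ^2 ∈ [0.49, 0.64]`, `p z` the polynomial of `Lam_poly8_le`:
`Lam ρ ≤ 0.36853` (`Lam_upper_poly_hi`, monotone in `ρ`), `Lam ρ ≥ p 0.49 ≥ 0.27037`,
`(1 - z) - 1.1 (log 2 - p z) ≥ 0` on `[0.49, 0.64]` (it is `≥ 0.0022` at `z = 0.64` and antitone in `z`),
and `Lam ρ ≤ z log 2` (`Lam_le_log_two_mul_sq`) gives `2 (log 2 - Lam ρ) ≥ 2 log 2 (1 - z) ≥ 1 - z`. -/
lemma consts_hi {ρ : ℝ} (h0 : 7 / 10 ≤ ρ) (h1 : ρ ≤ 4 / 5) :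
    3245 / 10000 ≤ Real.log 2 - Lam ρ ∧ Real.log 2 - Lam ρ ≤ 423 / 1000 ∧
      11 / 10 * (Real.log 2 - Lam ρ) ≤ 1 - ρ ^ 2 ∧ 1 - ρ ^ 2 ≤ 2 * (Real.log 2 - Lam ρ) := by
  have hρ0 : 0 ≤ ρ := by linarith
  have hlo := Lam_poly8_le (t := ρ) (by linarith) (by linarith)
  have hup := Lam_upper_poly_hi hρ0 h1
  have hsq := Lam_le_log_two_mul_sq (t := ρ) (by linarith) (by linarith)
  have hz1 : ρ ^ 2 ≤ 16 / 25 := by
    have := pow_le_pow_left₀ hρ0 h1 2
    norm_num at this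
    exact this
  have hz0 : 49 / 100 ≤ ρ ^ 2 := by
    have := pow_le_pow_left₀ (by norm_num : (0:ℝ) ≤ 7 / 10) h0 2
    norm_num at this
    exact this
  have e4 : ρ ^ 4 = (ρ ^ 2) ^ 2 := by ring
  have e6 : ρ ^ 6 = (ρ ^ 2) ^ 3 := by ring
  have e8 : ρ ^ 8 = (ρ ^ 2) ^ 4 := by ring
  have e10 : ρ ^ 10 = (ρ ^ 2) ^ 5 := by ring
  have e12 : ρ ^ 12 = (ρ ^ 2) ^ 6 := by ring
  rw [e4, e6, e8, e10, e12] at hup
  set z := ρ ^ 2 with hz
  have hzn : 0 ≤ z := by linarith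
  have hl := Real.log_two_lt_d9
  have hg := Real.log_two_gt_d9
  refine ⟨?_, ?_, ?_, ?_⟩
  · have u2 := pow_le_pow_left₀ hzn hz1 2
    have u3 := pow_le_pow_left₀ hzn hz1 3
    have u4 := pow_le_pow_left₀ hzn hz1 4
    have u5 := pow_le_pow_left₀ hzn hz1 5
    have u6 := pow_le_pow_left₀ hzn hz1 6
    norm_num at u2 u3 u4 u5 u6
    linarith
  · have c0 : (0:ℝ) ≤ 49 / 100 := by norm_num
    have u2 := pow_le_pow_left₀ c0 hz0 2
    have u3 := pow_le_pow_left₀ c0 hz0 3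
    have u4 := pow_le_pow_left₀ c0 hz0 4
    have u5 := pow_le_pow_left₀ c0 hz0 5
    have p6 : 0 ≤ z ^ 6 := by positivity
    have p7 : 0 ≤ z ^ 7 := by positivity
    have p8 : 0 ≤ z ^ 8 := by positivity
    norm_num at u2 u3 u4 u5
    linarith
  · have c0 : (0:ℝ) ≤ 16 / 25 := by norm_num
    have t2 := pow_tangent_hi c0 hzn 1
    have t3 := pow_tangent_hi c0 hzn 2
    have t4 := pow_tangent_hi c0 hzn 3
    have t5 := pow_tangent_hi c0 hzn 4
    have p6 : 0 ≤ z ^ 6 := by positivity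
    have p7 : 0 ≤ z ^ 7 := by positivity
    have p8 : 0 ≤ z ^ 8 := by positivity
    norm_num at t2 t3 t4 t5
    linarith
  · nlinarith

/-- The cut says `Lam ρ ((1-z)(1+J) + z) < z log 2`.  If `J > 0.573` this gives `p z (1.573 - 0.573 z) < z log 2`
(`Lam_poly8_le`), which is false on `[0.49, 0.64]`: at `z = 0.64` the left side is `0.44383..`, the right side `0.44362..`,
and `p z (1.573 - 0.573 z) - z log 2` is antitone in `z` there (or: substitute `z = 0.64 - s`). -/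
lemma Jc_hi {ρ J : ℝ} (h0 : 7 / 10 ≤ ρ) (h1 : ρ ≤ 4 / 5) (hJ : 0 ≤ J)
    (hcut : (1 - ρ ^ 2) * Lam ρ * (1 + J) < ρ ^ 2 * (Real.log 2 - Lam ρ)) : J ≤ 573 / 1000 := by
  by_contra hcon
  push Not at hcon
  have hρ0 : 0 ≤ ρ := by linarith
  have hlo := Lam_poly8_le (t := ρ) (by linarith) (by linarith)
  have hz1 : ρ ^ 2 ≤ 16 / 25 := by
    have := pow_le_pow_left₀ hρ0 h1 2
    norm_num at this
    exact this
  have hz0 : 49 / 100 ≤ ρ ^ 2 := by
    have := pow_le_pow_left₀ (by norm_num : (0:ℝ) ≤ 7 / 10) h0 2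
    norm_num at this
    exact this
  set z := ρ ^ 2 with hz
  have hzn : 0 ≤ z := by linarith
  have hl := Real.log_two_lt_d9
  have c0 : (0:ℝ) ≤ 16 / 25 := by norm_num
  have t2 := pow_tangent_hi c0 hzn 1
  have t3 := pow_tangent_hi c0 hzn 2
  have t4 := pow_tangent_hi c0 hzn 3
  have t5 := pow_tangent_hi c0 hzn 4
  have t6 := pow_tangent_hi c0 hzn 5
  have t7 := pow_tangent_hi c0 hzn 6
  norm_num at t2 t3 t4 t5 t6 t7
  -- `w z = p z / z` and its tangent line at `16/25`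
  have hw : 57490 / 100000 - 17150 / 100000 * (16 / 25 - z) ≤
      1 / 2 + z / 12 + z ^ 2 / 30 + z ^ 3 / 56 + z ^ 4 / 90 + z ^ 5 / 132 + z ^ 6 / 182
        + z ^ 7 / 240 := by
    linarith
  have hc : 0 ≤ 1573 / 1000 - 573 / 1000 * z := by linarith
  have hP : Real.log 2 ≤ (1573 / 1000 - 573 / 1000 * z) *
      (1 / 2 + z / 12 + z ^ 2 / 30 + z ^ 3 / 56 + z ^ 4 / 90 + z ^ 5 / 132 + z ^ 6 / 182
        + z ^ 7 / 240) := by
    have h3 := mul_le_mul_of_nonneg_left hw hc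
    have h4 : 0 ≤ (z - 49 / 100) * (16 / 25 - z) := mul_nonneg (by linarith) (by linarith)
    nlinarith
  have hL : z * (1 / 2 + z / 12 + z ^ 2 / 30 + z ^ 3 / 56 + z ^ 4 / 90 + z ^ 5 / 132 + z ^ 6 / 182
        + z ^ 7 / 240) ≤ Lam ρ := by
    calc _ = z / 2 + z ^ 2 / 12 + z ^ 3 / 30 + z ^ 4 / 56 + z ^ 5 / 90 + z ^ 6 / 132 + z ^ 7 / 182
          + z ^ 8 / 240 := by ring
      _ ≤ _ := hlo
  have h2 : z * Real.log 2 ≤ (1573 / 1000 - 573 / 1000 * z) * Lam ρ := by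
    calc z * Real.log 2
        ≤ z * ((1573 / 1000 - 573 / 1000 * z) * (1 / 2 + z / 12 + z ^ 2 / 30 + z ^ 3 / 56
            + z ^ 4 / 90 + z ^ 5 / 132 + z ^ 6 / 182 + z ^ 7 / 240)) :=
          mul_le_mul_of_nonneg_left hP hzn
      _ = (1573 / 1000 - 573 / 1000 * z) * (z * (1 / 2 + z / 12 + z ^ 2 / 30 + z ^ 3 / 56
            + z ^ 4 / 90 + z ^ 5 / 132 + z ^ 6 / 182 + z ^ 7 / 240)) := by ring
      _ ≤ _ := mul_le_mul_of_nonneg_left hL hc
  have hLam : 0 ≤ Lam ρ := le_trans (by positivity) hL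
  have h5 : 0 ≤ (1 - z) * Lam ρ * (J - 573 / 1000) :=
    mul_nonneg (mul_nonneg (by linarith) hLam) (by linarith)
  nlinarith

end Vale.Agent.Lib.P322.Pot
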