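import Mathlib

/-!
P322, potential method, range `7/10 ≤ ρ ≤ 4/5`.  Polynomial inequalities behind the pointwise inequality `PA_hi`.
Here `L` stands for `log 2`, `h` for `log 2 - Lam ρ`, `L - h` for `Lam ρ`; `a`, `q = d^2` are the parameters of an atom.
-/

namespace Vale.Agent.Lib.P322.Pot

lemma PA_E0_disc {lam h a : ℝ} (hl0 : 0 < lam) (h1 : 88 / 100 * lam ≤ h) (h2 : h ≤ 15661 / 10000 * lam)
    (ha0 : 0 ≤ a) (ha1 : a ≤ 1) :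
    0 ≤ 4 * (2 * lam * (1 + a / 10) - (1 + a) / 10 * (h + 2 * lam * (573 / 1000)))
          * (2 * lam * (1 + a / 10) + (h / 10) * (2 - (1 - a) / 10))
        - (2 * lam * (2 - (1 - a) / 5 - a * (1 - a) / 100)) ^ 2 := by
  obtain ⟨e, he⟩ : ∃ e : ℝ, h = e * lam := ⟨h / lam, by field_simp⟩
  subst he
  have e1 : 88 / 100 ≤ e := by
    by_contra hc
    push_neg at hc
    nlinarith
  have e2 : e ≤ 15661 / 10000 := by
    by_contra hc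
    push_neg at hc
    nlinarith
  have key : 0 ≤ 4 * (2 * (1 + a / 10) - (1 + a) / 10 * (e + 2 * (573 / 1000)))
          * (2 * (1 + a / 10) + (e / 10) * (2 - (1 - a) / 10))
        - (2 * (2 - (1 - a) / 5 - a * (1 - a) / 100)) ^ 2 := by
    nlinarith [mul_nonneg (sub_nonneg.2 e1) (sub_nonneg.2 e2), mul_nonneg ha0 (sub_nonneg.2 ha1),
      mul_nonneg (mul_nonneg (sub_nonneg.2 e1) (sub_nonneg.2 e2)) ha0,
      mul_nonneg (mul_nonneg ha0 (sub_nonneg.2 ha1)) (sub_nonneg.2 e1),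
      mul_nonneg (mul_nonneg ha0 (sub_nonneg.2 ha1)) (sub_nonneg.2 e2),
      mul_nonneg ha0 (sub_nonneg.2 e1), mul_nonneg ha0 (sub_nonneg.2 e2),
      mul_nonneg (sub_nonneg.2 ha1) (sub_nonneg.2 e1), mul_nonneg (sub_nonneg.2 ha1) (sub_nonneg.2 e2),
      mul_nonneg (mul_nonneg ha0 ha0) (mul_nonneg ha0 (sub_nonneg.2 ha1)),
      mul_nonneg ha0 (mul_nonneg ha0 (sub_nonneg.2 ha1))]
  have : 4 * (2 * lam * (1 + a / 10) - (1 + a) / 10 * (e * lam + 2 * lam * (573 / 1000)))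
          * (2 * lam * (1 + a / 10) + (e * lam / 10) * (2 - (1 - a) / 10))
        - (2 * lam * (2 - (1 - a) / 5 - a * (1 - a) / 100)) ^ 2
      = lam ^ 2 * (4 * (2 * (1 + a / 10) - (1 + a) / 10 * (e + 2 * (573 / 1000)))
          * (2 * (1 + a / 10) + (e / 10) * (2 - (1 - a) / 10))
        - (2 * (2 - (1 - a) / 5 - a * (1 - a) / 100)) ^ 2) := by ring
  rw [this]
  positivity

/-- On-axis inequality.  With `lam = L - h`, expanding in powers of `J`, the right side equals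
`- (lam/5) (1+a) J^3 + (2 lam (1 + a/10) - (h/10)(1+a)) J^2 - a B1 J + a^2 B0`,
`B1 = 2 lam (2 - (1-a)/5 - a (1-a)/100)`, `B0 = 2 lam (1 + a/10) + (h/10)(2 - (1-a)/10)`.
Since `J^3 ≤ (573/1000) J^2` it is at least `A2 J^2 - a B1 J + a^2 B0`,
`A2 = 2 lam (1 + a/10) - (1+a)/10 * (h + 2 lam * 573/1000) > 0.44`, and `4 A2 B0 - B1^2 ≥ 0.048` on the whole box
(minimum at `a = 1`, `h = 0.423`), so `4 A2 (A2 J^2 - a B1 J + a^2 B0) = (2 A2 J - a B1)^2 + a^2 (4 A2 B0 - B1^2) ≥ 0`. -/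
lemma PA_E0 {L h a J : ℝ} (hL0 : 0.6931471 < L) (hL1 : L < 0.6931472)
    (hh0 : 3245 / 10000 ≤ h) (hh1 : h ≤ 423 / 1000) (ha0 : 0 ≤ a) (ha1 : a ≤ 1)
    (hJ0 : 0 ≤ J) (hJ1 : J ≤ 573 / 1000) :
    0 ≤ (1 + a / 10) ^ 2 * ((2 * (L - h) * J - h) * (1 - a))
        + (1 + a / 10) * (2 * (L - h) * J ^ 2 + 2 * h + 2 * (L - h) * a ^ 2)
        - (1 + J ^ 2 / 10) * (h + 2 * (L - h) * J) * (1 + a) := by
  obtain ⟨lam, hlam⟩ : ∃ lam : ℝ, lam = L - h := ⟨_, rfl⟩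
  rw [← hlam]
  have hl0 : 2701471 / 10000000 < lam := by rw [hlam]; norm_num at hL0 ⊢; linarith
  have hl1 : lam < 3686472 / 10000000 := by rw [hlam]; norm_num at hL1 ⊢; linarith
  have hlp : 0 < lam := by linarith
  have h1 : 88 / 100 * lam ≤ h := by linarith
  have h2 : h ≤ 15661 / 10000 * lam := by linarith
  have hD := PA_E0_disc hlp h1 h2 ha0 ha1
  set A2 := 2 * lam * (1 + a / 10) - (1 + a) / 10 * (h + 2 * lam * (573 / 1000)) with hA2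
  set B0 := 2 * lam * (1 + a / 10) + (h / 10) * (2 - (1 - a) / 10) with hB0
  set B1 := 2 * lam * (2 - (1 - a) / 5 - a * (1 - a) / 100) with hB1
  have hA2p : 0 < A2 := by rw [hA2]; nlinarith
  have hcub : 0 ≤ lam / 5 * (1 + a) * (J ^ 2 * (573 / 1000 - J)) := by
    have : 0 ≤ 573 / 1000 - J := by linarith
    positivity
  have hE : (1 + a / 10) ^ 2 * ((2 * lam * J - h) * (1 - a))
        + (1 + a / 10) * (2 * lam * J ^ 2 + 2 * h + 2 * lam * a ^ 2)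
        - (1 + J ^ 2 / 10) * (h + 2 * lam * J) * (1 + a)
      = (A2 * J ^ 2 - a * B1 * J + a ^ 2 * B0) + lam / 5 * (1 + a) * (J ^ 2 * (573 / 1000 - J)) := by
    rw [hA2, hB0, hB1]; ring
  rw [hE]
  have hq : 0 ≤ 4 * A2 * (A2 * J ^ 2 - a * B1 * J + a ^ 2 * B0) := by
    have : 4 * A2 * (A2 * J ^ 2 - a * B1 * J + a ^ 2 * B0)
        = (2 * A2 * J - a * B1) ^ 2 + a ^ 2 * (4 * A2 * B0 - B1 ^ 2) := by ring
    rw [this]; positivity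
  have hq2 : 0 ≤ A2 * J ^ 2 - a * B1 * J + a ^ 2 * B0 := by
    by_contra hc
    push_neg at hc
    nlinarith
  linarith

lemma PA_sum_auxA {a J : ℝ} (ha0 : 0 ≤ a) (ha1 : a ≤ 1) (hJ0 : 0 ≤ J) (hJ1 : J ≤ 573 / 1000) :
    0 ≤ (2) + (8 / 5) * J ^ 1 + (19 / 5) * J ^ 2 + (-1 / 5) * J ^ 3 + (1 / 5) * a ^ 1 + (-131 / 25) * a ^ 1 * J ^ 1 + (1 / 5) * a ^ 1 * J ^ 2 + (-1 / 5) * a ^ 1 * J ^ 3 + (-11 / 5) * a ^ 2 + (-9 / 25) * a ^ 2 * J ^ 1 + (-2 / 5) * a ^ 3 + (2) * a ^ 4 + (1 / 5) * a ^ 5 := by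
  obtain ⟨u, hu⟩ : ∃ u : ℝ, u = 1 - a := ⟨_, rfl⟩
  obtain ⟨v, hv⟩ : ∃ v : ℝ, v = 573 / 1000 - J := ⟨_, rfl⟩
  have hu0 : 0 ≤ u := by rw [hu]; linarith
  have hv0 : 0 ≤ v := by rw [hv]; linarith
  have key : (2) + (8 / 5) * J ^ 1 + (19 / 5) * J ^ 2 + (-1 / 5) * J ^ 3 + (1 / 5) * a ^ 1 + (-131 / 25) * a ^ 1 * J ^ 1 + (1 / 5) * a ^ 1 * J ^ 2 + (-1 / 5) * a ^ 1 * J ^ 3 + (-11 / 5) * a ^ 2 + (-9 / 25) * a ^ 2 * J ^ 1 + (-2 / 5) * a ^ 3 + (2) * a ^ 4 + (1 / 5) * a ^ 5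
      = (2000000000 / 188132517) * a ^ 0 * u ^ 5 * J ^ 0 * v ^ 3
        + (2305600000 / 62710839) * a ^ 0 * u ^ 5 * J ^ 1 * v ^ 2
        + (336342600 / 6967871) * a ^ 0 * u ^ 5 * J ^ 2 * v ^ 1
        + (20634118483 / 940662585) * a ^ 0 * u ^ 5 * J ^ 3 * v ^ 0
        + (3400000000 / 62710839) * a ^ 1 * u ^ 4 * J ^ 0 * v ^ 3
        + (3575720000 / 20903613) * a ^ 1 * u ^ 4 * J ^ 1 * v ^ 2
        + (1483958400 / 6967871) * a ^ 1 * u ^ 4 * J ^ 2 * v ^ 1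
        + (29766062966 / 313554195) * a ^ 1 * u ^ 4 * J ^ 3 * v ^ 0
        + (6200000000 / 62710839) * a ^ 2 * u ^ 3 * J ^ 0 * v ^ 3
        + (17583880000 / 62710839) * a ^ 2 * u ^ 3 * J ^ 1 * v ^ 2
        + (20814148400 / 62710839) * a ^ 2 * u ^ 3 * J ^ 2 * v ^ 1
        + (5141487806 / 34839355) * a ^ 2 * u ^ 3 * J ^ 3 * v ^ 0
        + (14200000000 / 188132517) * a ^ 3 * u ^ 2 * J ^ 0 * v ^ 3
        + (3681560000 / 20903613) * a ^ 3 * u ^ 2 * J ^ 1 * v ^ 2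
        + (12179525600 / 62710839) * a ^ 3 * u ^ 2 * J ^ 2 * v ^ 1
        + (85012563728 / 940662585) * a ^ 3 * u ^ 2 * J ^ 3 * v ^ 0
        + (200000000 / 6967871) * a ^ 4 * u ^ 1 * J ^ 0 * v ^ 3
        + (302040000 / 6967871) * a ^ 4 * u ^ 1 * J ^ 1 * v ^ 2
        + (244854600 / 6967871) * a ^ 4 * u ^ 1 * J ^ 2 * v ^ 1
        + (651362161 / 34839355) * a ^ 4 * u ^ 1 * J ^ 3 * v ^ 0
        + (200000000 / 20903613) * a ^ 5 * u ^ 0 * J ^ 0 * v ^ 3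
        + (1036000000 / 62710839) * a ^ 5 * u ^ 0 * J ^ 1 * v ^ 2
        + (709772000 / 62710839) * a ^ 5 * u ^ 0 * J ^ 2 * v ^ 1
        + (1243438322 / 313554195) * a ^ 5 * u ^ 0 * J ^ 3 * v ^ 0 := by
    rw [hu, hv]
    ring
  rw [key]
  positivity

lemma PA_sum_auxG0 {a J : ℝ} (ha0 : 0 ≤ a) (ha1 : a ≤ 1) (hJ0 : 0 ≤ J) (hJ1 : J ≤ 573 / 1000) :
    0 ≤ (2701471 / 10000000) * ((2) + (8 / 5) * J ^ 1 + (19 / 5) * J ^ 2 + (-1 / 5) * J ^ 3 + (1 / 5) * a ^ 1 + (-131 / 25) * a ^ 1 * J ^ 1 + (1 / 5) * a ^ 1 * J ^ 2 + (-1 / 5) * a ^ 1 * J ^ 3 + (-11 / 5) * a ^ 2 + (-9 / 25) * a ^ 2 * J ^ 1 + (-2 / 5) * a ^ 3 + (2) * a ^ 4 + (1 / 5) * a ^ 5)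
      + (3245 / 10000) * ((1) + (-1 / 10) * J ^ 2 + (41 / 50) * a ^ 1 + (-1 / 10) * a ^ 1 * J ^ 2 + (-91 / 50) * a ^ 2 + (-1 / 5) * a ^ 3) := by
  obtain ⟨u, hu⟩ : ∃ u : ℝ, u = 1 - a := ⟨_, rfl⟩
  obtain ⟨v, hv⟩ : ∃ v : ℝ, v = 573 / 1000 - J := ⟨_, rfl⟩
  have hu0 : 0 ≤ u := by rw [hu]; linarith
  have hv0 : 0 ≤ v := by rw [hv]; linarith
  have key : (2701471 / 10000000) * ((2) + (8 / 5) * J ^ 1 + (19 / 5) * J ^ 2 + (-1 / 5) * J ^ 3 + (1 / 5) * a ^ 1 + (-131 / 25) * a ^ 1 * J ^ 1 + (1 / 5) * a ^ 1 * J ^ 2 + (-1 / 5) * a ^ 1 * J ^ 3 + (-11 / 5) * a ^ 2 + (-9 / 25) * a ^ 2 * J ^ 1 + (-2 / 5) * a ^ 3 + (2) * a ^ 4 + (1 / 5) * a ^ 5)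
      + (3245 / 10000) * ((1) + (-1 / 10) * J ^ 2 + (41 / 50) * a ^ 1 + (-1 / 10) * a ^ 1 * J ^ 2 + (-91 / 50) * a ^ 2 + (-1 / 5) * a ^ 3)
      = (864794200 / 188132517) * a ^ 0 * u ^ 5 * J ^ 0 * v ^ 3
        + (7894592948 / 522590325) * a ^ 0 * u ^ 5 * J ^ 1 * v ^ 2
        + (56935318830907 / 3135541950000) * a ^ 0 * u ^ 5 * J ^ 2 * v ^ 1
        + (71434758889888493 / 9406625850000000) * a ^ 0 * u ^ 5 * J ^ 3 * v ^ 0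
        + (1548030140 / 62710839) * a ^ 1 * u ^ 4 * J ^ 0 * v ^ 3
        + (132958365701 / 1741967750) * a ^ 1 * u ^ 4 * J ^ 1 * v ^ 2
        + (11406802025887 / 130647581250) * a ^ 1 * u ^ 4 * J ^ 2 * v ^ 1
        + (55411614140911493 / 1567770975000000) * a ^ 1 * u ^ 4 * J ^ 3 * v ^ 0
        + (2914502020 / 62710839) * a ^ 2 * u ^ 3 * J ^ 0 * v ^ 3
        + (2117251047187 / 15677709750) * a ^ 2 * u ^ 3 * J ^ 1 * v ^ 2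
        + (232298296858241 / 1567770975000) * a ^ 2 * u ^ 3 * J ^ 2 * v ^ 1
        + (92249862048931817 / 1567770975000000) * a ^ 2 * u ^ 3 * J ^ 3 * v ^ 0
        + (6840958820 / 188132517) * a ^ 3 * u ^ 2 * J ^ 0 * v ^ 3
        + (1497139568107 / 15677709750) * a ^ 3 * u ^ 2 * J ^ 1 * v ^ 2
        + (25992961310899 / 261295162500) * a ^ 3 * u ^ 2 * J ^ 2 * v ^ 1
        + (23211190919177743 / 587914115625000) * a ^ 3 * u ^ 2 * J ^ 3 * v ^ 0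
        + (2244084340 / 188132517) * a ^ 4 * u ^ 1 * J ^ 0 * v ^ 3
        + (379911767689 / 15677709750) * a ^ 4 * u ^ 1 * J ^ 1 * v ^ 2
        + (67432400642747 / 3135541950000) * a ^ 4 * u ^ 1 * J ^ 2 * v ^ 1
        + (81980247465348437 / 9406625850000000) * a ^ 4 * u ^ 1 * J ^ 3 * v ^ 0
        + (421364780 / 188132517) * a ^ 5 * u ^ 0 * J ^ 0 * v ^ 3
        + (358287326 / 104518065) * a ^ 5 * u ^ 0 * J ^ 1 * v ^ 2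
        + (299349991903 / 156777097500) * a ^ 5 * u ^ 0 * J ^ 2 * v ^ 1
        + (2883455048257493 / 4703312925000000) * a ^ 5 * u ^ 0 * J ^ 3 * v ^ 0 := by
    rw [hu, hv]
    ring
  rw [key]
  positivity

lemma PA_sum_auxG1 {a J : ℝ} (ha0 : 0 ≤ a) (ha1 : a ≤ 1) (hJ0 : 0 ≤ J) (hJ1 : J ≤ 573 / 1000) :
    0 ≤ (2701471 / 10000000) * ((2) + (8 / 5) * J ^ 1 + (19 / 5) * J ^ 2 + (-1 / 5) * J ^ 3 + (1 / 5) * a ^ 1 + (-131 / 25) * a ^ 1 * J ^ 1 + (1 / 5) * a ^ 1 * J ^ 2 + (-1 / 5) * a ^ 1 * J ^ 3 + (-11 / 5) * a ^ 2 + (-9 / 25) * a ^ 2 * J ^ 1 + (-2 / 5) * a ^ 3 + (2) * a ^ 4 + (1 / 5) * a ^ 5)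
      + (423 / 1000) * ((1) + (-1 / 10) * J ^ 2 + (41 / 50) * a ^ 1 + (-1 / 10) * a ^ 1 * J ^ 2 + (-91 / 50) * a ^ 2 + (-1 / 5) * a ^ 3) := by
  obtain ⟨u, hu⟩ : ∃ u : ℝ, u = 1 - a := ⟨_, rfl⟩
  obtain ⟨v, hv⟩ : ∃ v : ℝ, v = 573 / 1000 - J := ⟨_, rfl⟩
  have hu0 : 0 ≤ u := by rw [hu]; linarith
  have hv0 : 0 ≤ v := by rw [hv]; linarith
  have key : (2701471 / 10000000) * ((2) + (8 / 5) * J ^ 1 + (19 / 5) * J ^ 2 + (-1 / 5) * J ^ 3 + (1 / 5) * a ^ 1 + (-131 / 25) * a ^ 1 * J ^ 1 + (1 / 5) * a ^ 1 * J ^ 2 + (-1 / 5) * a ^ 1 * J ^ 3 + (-11 / 5) * a ^ 2 + (-9 / 25) * a ^ 2 * J ^ 1 + (-2 / 5) * a ^ 3 + (2) * a ^ 4 + (1 / 5) * a ^ 5)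
      + (423 / 1000) * ((1) + (-1 / 10) * J ^ 2 + (41 / 50) * a ^ 1 + (-1 / 10) * a ^ 1 * J ^ 2 + (-91 / 50) * a ^ 2 + (-1 / 5) * a ^ 3)
      = (963294200 / 188132517) * a ^ 0 * u ^ 5 * J ^ 0 * v ^ 3
        + (26146278844 / 1567770975) * a ^ 0 * u ^ 5 * J ^ 1 * v ^ 2
        + (6867379794823 / 348393550000) * a ^ 0 * u ^ 5 * J ^ 2 * v ^ 1
        + (76198056857388493 / 9406625850000000) * a ^ 0 * u ^ 5 * J ^ 3 * v ^ 0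
        + (1739120140 / 62710839) * a ^ 1 * u ^ 4 * J ^ 0 * v ^ 3
        + (446647597103 / 5225903250) * a ^ 1 * u ^ 4 * J ^ 1 * v ^ 2
        + (2097939892752 / 21774596875) * a ^ 1 * u ^ 4 * J ^ 2 * v ^ 1
        + (60027162108411493 / 1567770975000000) * a ^ 1 * u ^ 4 * J ^ 3 * v ^ 0
        + (3290772020 / 62710839) * a ^ 2 * u ^ 3 * J ^ 0 * v ^ 3
        + (2399453547187 / 15677709750) * a ^ 2 * u ^ 3 * J ^ 1 * v ^ 2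
        + (260141242115741 / 1567770975000) * a ^ 2 * u ^ 3 * J ^ 2 * v ^ 1
        + (11253256367381313 / 174196775000000) * a ^ 2 * u ^ 3 * J ^ 3 * v ^ 0
        + (7753068820 / 188132517) * a ^ 3 * u ^ 2 * J ^ 0 * v ^ 3
        + (575055689369 / 5225903250) * a ^ 3 * u ^ 2 * J ^ 1 * v ^ 2
        + (89164656222697 / 783885487500) * a ^ 3 * u ^ 2 * J ^ 2 * v ^ 1
        + (25899832636677743 / 587914115625000) * a ^ 3 * u ^ 2 * J ^ 3 * v ^ 0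
        + (275828260 / 20903613) * a ^ 4 * u ^ 1 * J ^ 0 * v ^ 3
        + (48833807521 / 1741967750) * a ^ 4 * u ^ 1 * J ^ 1 * v ^ 2
        + (8762866060583 / 348393550000) * a ^ 4 * u ^ 1 * J ^ 2 * v ^ 1
        + (10271492130316493 / 1045180650000000) * a ^ 4 * u ^ 1 * J ^ 3 * v ^ 0
        + (44629420 / 20903613) * a ^ 5 * u ^ 0 * J ^ 0 * v ^ 3
        + (976361978 / 313554195) * a ^ 5 * u ^ 0 * J ^ 1 * v ^ 2
        + (244709924153 / 156777097500) * a ^ 5 * u ^ 0 * J ^ 2 * v ^ 1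
        + (743084338585831 / 1567770975000000) * a ^ 5 * u ^ 0 * J ^ 3 * v ^ 0 := by
    rw [hu, hv]
    ring
  rw [key]
  positivity

/-- Numerically the right side is `≥ 0.089` on the whole box (minimum at `a = 1`, `J = 0.573`, `h = 0.423`).
It is affine in `h` and in `L`. -/
lemma PA_sum {L h a J : ℝ} (hL0 : 0.6931471 < L) (hL1 : L < 0.6931472)
    (hh0 : 3245 / 10000 ≤ h) (hh1 : h ≤ 423 / 1000) (ha0 : 0 ≤ a) (ha1 : a ≤ 1)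
    (hJ0 : 0 ≤ J) (hJ1 : J ≤ 573 / 1000) :
    0 ≤ ((1 + a / 10) ^ 2 * ((2 * (L - h) * J - h) * (1 - a))
        + (1 + a / 10) * (2 * (L - h) * J ^ 2 + 2 * h + 2 * (L - h) * a ^ 2)
        - (1 + J ^ 2 / 10) * (h + 2 * (L - h) * J) * (1 + a))
      + 9 / 10 * (9 / 10 * ((2 * (L - h) * J - h) * (1 - a))
          + (2 * (L - h) * J ^ 2 + 2 * h + 2 * (L - h) * a ^ 2)
          + (2 * (L - h) * (1 - a ^ 2) ^ 2 - 2 * L * a ^ 2))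
      + (1 + a) / 10 * ((2 * (L - h) * (1 - a ^ 2) ^ 2 - 2 * L * a ^ 2)
          - (1 + a) / 10 * ((2 * (L - h) * J - h) * (1 - a))) := by
  have hA := PA_sum_auxA ha0 ha1 hJ0 hJ1
  have hG0 := PA_sum_auxG0 ha0 ha1 hJ0 hJ1
  have hG1 := PA_sum_auxG1 ha0 ha1 hJ0 hJ1
  have hl : 0 ≤ L - h - 2701471 / 10000000 := by norm_num at hL0 ⊢; linarith
  have t1 := mul_nonneg hl hA
  have t2 := mul_nonneg (sub_nonneg.2 hh1) hG0
  have t3 := mul_nonneg (sub_nonneg.2 hh0) hG1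
  nlinarith [t1, t2, t3]

/-- With `M1 = (2 lam J - h)(1-a)`, `M2 = 2 lam J^2 + 2 h + 2 lam a^2`, `k1 = 2 lam (1-a^2)^2 - 2 L a^2`,
`E0` the right side of `PA_E0`, `W1 = (9/10) (9/10 M1 + M2 + k1)`, `W2 = (1+a)/10 (k1 - (1+a)/10 M1)`:
right side minus left side `= (1-q)^2 E0 + q^2 W1 + q (1-q) (E0 + W1 + W2)` (an identity, by `ring`);
`E0 ≥ 0` (`PA_E0`), `E0 + W1 + W2 ≥ 0` (`PA_sum`) and
`9/10 M1 + M2 + k1 = h (1-a)(11/10 + 2a) + 2 lam (1-a^2)^2 + (9/5) lam J (1-a) + 2 lam J^2 ≥ 0`. -/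
lemma PA_poly {L h a q J : ℝ} (hL0 : 0.6931471 < L) (hL1 : L < 0.6931472)
    (hh0 : 3245 / 10000 ≤ h) (hh1 : h ≤ 423 / 1000) (ha0 : 0 ≤ a) (ha1 : a ≤ 1)
    (hq0 : 0 ≤ q) (hq1 : q ≤ 1) (hJ0 : 0 ≤ J) (hJ1 : J ≤ 573 / 1000) :
    (1 + J ^ 2 / 10) * (h + 2 * (L - h) * J) * (1 + a) * (1 - q) ≤
      (1 + a / 10 - (1 + a) * q / 10) *
        ((2 * (L - h) * J - h) * (1 - a) * (1 + a / 10 - (1 + a) * q / 10) + 2 * (L - h) * J ^ 2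
          + 2 * (h + (L - h) * (a ^ 2 + q * (1 - a ^ 2) ^ 2) - L * a ^ 2 * q)) := by
  have hE0 := PA_E0 hL0 hL1 hh0 hh1 ha0 ha1 hJ0 hJ1
  have hS := PA_sum hL0 hL1 hh0 hh1 ha0 ha1 hJ0 hJ1
  obtain ⟨E0, hE0d⟩ : ∃ E0, E0 = (1 + a / 10) ^ 2 * ((2 * (L - h) * J - h) * (1 - a))
        + (1 + a / 10) * (2 * (L - h) * J ^ 2 + 2 * h + 2 * (L - h) * a ^ 2)
        - (1 + J ^ 2 / 10) * (h + 2 * (L - h) * J) * (1 + a) := ⟨_, rfl⟩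
  obtain ⟨W1, hW1d⟩ : ∃ W1, W1 = 9 / 10 * (9 / 10 * ((2 * (L - h) * J - h) * (1 - a))
          + (2 * (L - h) * J ^ 2 + 2 * h + 2 * (L - h) * a ^ 2)
          + (2 * (L - h) * (1 - a ^ 2) ^ 2 - 2 * L * a ^ 2)) := ⟨_, rfl⟩
  obtain ⟨W2, hW2d⟩ : ∃ W2, W2 = (1 + a) / 10 * ((2 * (L - h) * (1 - a ^ 2) ^ 2 - 2 * L * a ^ 2)
          - (1 + a) / 10 * ((2 * (L - h) * J - h) * (1 - a))) := ⟨_, rfl⟩
  rw [← hE0d] at hE0
  rw [← hE0d, ← hW1d, ← hW2d] at hS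
  have hlam : 0 ≤ L - h := by linarith
  have hW1 : 0 ≤ W1 := by
    have e : W1 = 9 / 10 * (h * (1 - a) * (11 / 10 + 2 * a) + 2 * (L - h) * (1 - a ^ 2) ^ 2
        + 9 / 5 * (L - h) * J * (1 - a) + 2 * (L - h) * J ^ 2) := by
      rw [hW1d]; ring
    rw [e]
    have h1a : 0 ≤ 1 - a := by linarith
    have hh : 0 ≤ h := by linarith
    positivity
  have key : (1 + a / 10 - (1 + a) * q / 10) *
        ((2 * (L - h) * J - h) * (1 - a) * (1 + a / 10 - (1 + a) * q / 10) + 2 * (L - h) * J ^ 2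
          + 2 * (h + (L - h) * (a ^ 2 + q * (1 - a ^ 2) ^ 2) - L * a ^ 2 * q))
      - (1 + J ^ 2 / 10) * (h + 2 * (L - h) * J) * (1 + a) * (1 - q)
      = (1 - q) ^ 2 * E0 + q ^ 2 * W1 + q * (1 - q) * (E0 + W1 + W2) := by
    rw [hE0d, hW1d, hW2d]; ring
  have h1q : 0 ≤ 1 - q := by linarith
  have : 0 ≤ (1 - q) ^ 2 * E0 + q ^ 2 * W1 + q * (1 - q) * (E0 + W1 + W2) := by positivity
  linarith

/-- Monotonicity.  Put `R = h + 2 lam J`, `cC = K0 - h x1`, `δ = x - x1 ≥ 0`; the left side is `x1 (R x1 + 2 lam J^2 + 2 cC)`.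
Case `K0 - h x ≥ 0`: `c ≥ cC - h δ ≥ 0` and the difference is at least
`δ (2 lam J (x + x1) + 2 lam J^2 + cC + (cC - h δ)) ≥ 0`.
Case `K0 - h x < 0`: use `c ≥ 0`; if `cC ≤ 0` it is clear, otherwise `cC < h δ` and
`R (x^2 - x1^2) ≥ h δ (x + x1) ≥ cC (x + x1) ≥ 2 x1 cC`. -/
lemma psi_mono {h lam J x x1 c K0 : ℝ} (hh : 0 ≤ h) (hl : 0 ≤ lam) (hJ : 0 ≤ J) (hx1 : 0 ≤ x1)
    (hx : x1 ≤ x) (hc : 0 ≤ c) (hK : K0 ≤ c + h * x) :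
    x1 * ((2 * lam * J - h) * x1 + 2 * lam * J ^ 2 + 2 * K0)
      ≤ x * ((h + 2 * lam * J) * x + 2 * lam * J ^ 2 + 2 * c) := by
  -- replace `K0` by its upper bound
  have h1 : x1 * ((2 * lam * J - h) * x1 + 2 * lam * J ^ 2 + 2 * K0)
      ≤ x1 * ((2 * lam * J - h) * x1 + 2 * lam * J ^ 2 + 2 * (c + h * x)) := by
    apply mul_le_mul_of_nonneg_left _ hx1
    linarith
  refine h1.trans ?_
  have hd : 0 ≤ x - x1 := by linarith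
  have hx0 : 0 ≤ x := by linarith
  have e : x * ((h + 2 * lam * J) * x + 2 * lam * J ^ 2 + 2 * c)
      - x1 * ((2 * lam * J - h) * x1 + 2 * lam * J ^ 2 + 2 * (c + h * x))
      = h * (x - x1) ^ 2 + 2 * lam * J * (x - x1) * (x + x1) + 2 * lam * J ^ 2 * (x - x1)
        + 2 * c * (x - x1) := by ring
  have : 0 ≤ h * (x - x1) ^ 2 + 2 * lam * J * (x - x1) * (x + x1) + 2 * lam * J ^ 2 * (x - x1)
        + 2 * c * (x - x1) := by positivity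
  linarith

end Vale.Agent.Lib.P322.Pot
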