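import Vale.Agent.Lib.P322.Pot.Hi.X0
import Vale.Agent.Lib.P322.Pot.Hi.Consts
import Vale.Agent.Lib.P322.Pot.Hi.PApoly

/-!
P322, potential method, range `7/10 ≤ ρ ≤ 4/5`.  The pointwise inequality (no mean `μ` in it).
-/

namespace Vale.Agent.Lib.P322.Pot

open Real Vale.Agent.Lib.P322

/-- algebra behind the first inequality of `atom_hi` -/
lemma atom_hi_alg1 {h Z a w v2 q G : ℝ} (hh : 0 ≤ h) (hZ : 11 / 10 * h ≤ Z) (hG2 : 1 - a ≤ w)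
    (hwv : v2 ≤ w) (hva : v2 = (1 - a ^ 2) * (1 - q))
    (hx0 : h * (1 - 2 * a + (1 - w)) + Z * (a - (1 - w)) ≤ G) :
    h * ((1 - a) * (1 + a / 10 - (1 + a) * q / 10)) ≤ G := by
  have k1 : 11 / 10 * h * (a - (1 - w)) ≤ Z * (a - (1 - w)) :=
    mul_le_mul_of_nonneg_right hZ (by linarith)
  have k2 : h * (v2 / 10) ≤ h * (w / 10) :=
    mul_le_mul_of_nonneg_left (by linarith) hh
  have k3 : h * ((1 - a) * (1 + a / 10 - (1 + a) * q / 10))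
      = h * (9 / 10 * (1 - a)) + h * (v2 / 10) := by
    rw [hva]; ring
  rw [k3]
  linarith

/-- algebra behind the second inequality of `atom_hi` -/
lemma atom_hi_alg2 {w a q u2 v2 : ℝ} (hupos : 0 < 1 - u2) (hu0 : 0 ≤ u2)
    (hwD : w * (1 - u2) = v2) (hva : v2 = (1 - a ^ 2) * (1 - q)) (hu2 : u2 = a ^ 2 * q)
    (hq0 : 0 ≤ q) : q * (1 - a ^ 2) ^ 2 ≤ 1 - w - a ^ 2 := by
  have hD : (1 - w - a ^ 2) * (1 - u2) = q * (1 - a ^ 2) ^ 2 := by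
    have : (1 - w - a ^ 2) * (1 - u2) = (1 - a ^ 2) * (1 - u2) - w * (1 - u2) := by ring
    rw [this, hwD, hva, hu2]; ring
  have hpos : 0 ≤ 1 - w - a ^ 2 := by
    by_contra hneg
    have hneg' : 1 - w - a ^ 2 < 0 := not_le.mp hneg
    have : (1 - w - a ^ 2) * (1 - u2) < 0 := mul_neg_of_neg_of_pos hneg' hupos
    have h2 : 0 ≤ q * (1 - a ^ 2) ^ 2 := by positivity
    linarith
  rw [← hD]
  have : (1 - w - a ^ 2) * (1 - u2) ≤ (1 - w - a ^ 2) * 1 :=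
    mul_le_mul_of_nonneg_left (by linarith) hpos
  linarith

/-- Facts about one atom with `|u| < 1`.  Take `a, d` from `param`, `q = d^2`, `w = v^2/(1-u^2)`, `h = log 2 - Lam ρ`.
(1) `x0_avg` (hypotheses from `consts_hi`) reads `h (1 - 2a + (1-w)) + (1-ρ^2)(a - (1-w)) ≤ Gf`; `a - (1-w) ≥ 0` (`param_G2`) and
`1 - ρ^2 ≥ (11/10) h` give `Gf ≥ h (9/10 (1-a) + w/10)`; `w ≥ v^2 = (1-a^2)(1-q)` because `0 < 1 - u^2 ≤ 1`.
(2) `cf + Gf = log 2 - Lam u - ((Lam (u+ρv) + Lam (u-ρv))/2 - Lam u) ≥ log 2 - Lam u - Lam ρ w` (`eS_upper`),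
`Lam u ≤ log 2 u^2 = log 2 a^2 q` (`Lam_le_log_two_mul_sq`), and
`1 - w - a^2 = q (1-a^2)^2/(1 - a^2 q) ≥ q (1-a^2)^2`. -/
lemma atom_hi {ρ u v : ℝ} (h0 : 7 / 10 ≤ ρ) (h1 : ρ ≤ 4 / 5) (huv : |u| + |v| ≤ 1) (hu : |u| < 1) :
    ∃ a q : ℝ, 0 ≤ a ∧ a ≤ 1 ∧ 0 ≤ q ∧ q ≤ 1 ∧ v ^ 2 = (1 - a ^ 2) * (1 - q) ∧
      (Real.log 2 - Lam ρ) * ((1 - a) * (1 + a / 10 - (1 + a) * q / 10)) ≤ Gf ρ u v ∧
      (Real.log 2 - Lam ρ) + Lam ρ * (a ^ 2 + q * (1 - a ^ 2) ^ 2) - Real.log 2 * a ^ 2 * q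
        ≤ cf u v + Gf ρ u v := by
  have hρ0 : 0 ≤ ρ := by linarith
  have hρ1 : ρ < 1 := by linarith
  obtain ⟨hh0, hh1, hc1, hc2⟩ := consts_hi h0 h1
  have hlam0 : 0 ≤ Lam ρ := Lam_nonneg hρ0 hρ1.le
  obtain ⟨a, d, ha0, ha1, hd, hua, hva, haeq⟩ := param huv
  have hu1 : u ^ 2 < 1 := by
    have := abs_nonneg u
    rw [← sq_abs]; nlinarith
  have hupos : 0 < 1 - u ^ 2 := by linarith
  have hub := abs_lt.mp hu
  have hx0 := x0_avg hρ0 hρ1 hc2 (by linarith) huv hu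
  rw [← haeq] at hx0
  have her := eS_upper hρ0 hρ1.le huv hu
  have hLu := Lam_le_log_two_mul_sq (t := u) hub.1.le hub.2.le
  have hG2 := param_G2 (w := v ^ 2 / (1 - u ^ 2)) ha0 ha1 hd hua hva hu1 rfl
  have ha2 : a ^ 2 ≤ 1 := by nlinarith
  have hq0 : 0 ≤ d ^ 2 := sq_nonneg d
  have hq1 : d ^ 2 ≤ 1 := le_trans hd ha2
  have hu2 : u ^ 2 = a ^ 2 * d ^ 2 := by rw [hua]; ring
  have hwD : v ^ 2 / (1 - u ^ 2) * (1 - u ^ 2) = v ^ 2 := div_mul_cancel₀ _ hupos.ne'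
  have hv0 : 0 ≤ v ^ 2 := sq_nonneg v
  have hw0 : 0 ≤ v ^ 2 / (1 - u ^ 2) := div_nonneg hv0 hupos.le
  have hwv : v ^ 2 ≤ v ^ 2 / (1 - u ^ 2) := by
    have : v ^ 2 / (1 - u ^ 2) * (1 - u ^ 2) ≤ v ^ 2 / (1 - u ^ 2) * 1 :=
      mul_le_mul_of_nonneg_left (by linarith [sq_nonneg u]) hw0
    linarith
  refine ⟨a, d ^ 2, ha0, ha1, hq0, hq1, hva, ?_, ?_⟩
  · exact atom_hi_alg1 (by linarith) hc1 hG2 hwv hva hx0
  · have e1 : cf u v + Gf ρ u v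
        = Real.log 2 - Lam u - ((Lam (u + ρ * v) + Lam (u - ρ * v)) / 2 - Lam u) := by
      unfold cf Gf; ring
    rw [e1]
    have hge := atom_hi_alg2 hupos (sq_nonneg u) hwD hva hu2 hq0
    have k1 : Lam ρ * (d ^ 2 * (1 - a ^ 2) ^ 2) ≤ Lam ρ * (1 - v ^ 2 / (1 - u ^ 2) - a ^ 2) :=
      mul_le_mul_of_nonneg_left hge hlam0
    have k2 : Real.log 2 * u ^ 2 = Real.log 2 * a ^ 2 * d ^ 2 := by rw [hu2]; ring
    have k3 : Lam ρ * (a ^ 2 + d ^ 2 * (1 - a ^ 2) ^ 2)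
        = Lam ρ * a ^ 2 + Lam ρ * (d ^ 2 * (1 - a ^ 2) ^ 2) := by ring
    have k4 : Lam ρ * (1 - v ^ 2 / (1 - u ^ 2) - a ^ 2)
        = Lam ρ - Lam ρ * (v ^ 2 / (1 - u ^ 2)) - Lam ρ * a ^ 2 := by ring
    rw [k3]
    linarith

/-- If `|u| = 1` then `v = 0` (`v_zero_of`) and the right side is `≥ 0` (`Gf_zero`).  Otherwise take `a, q` from `atom_hi`, put
`h = log 2 - Lam ρ`, `lam = Lam ρ`, `R = h + 2 lam J > 0`, `x = Gf/h`, `c = cf u v ≥ 0`, `ξ = 1 + a/10 - (1+a) q/10 ≥ 0`, `x1 = (1-a) ξ`,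
`K0 = h + lam (a^2 + q (1-a^2)^2) - log 2 a^2 q`.  Then `x1 ≤ x`, `K0 ≤ c + h x`, so by `psi_mono` and `PA_poly` (times `1 - a ≥ 0`)
`x (R x + 2 lam J^2 + 2 c) ≥ x1 ((2 lam J - h) x1 + 2 lam J^2 + 2 K0) ≥ (1 + J^2/10) R (1-a)(1+a)(1-q) = (1 + J^2/10) R v^2`;
divide by `R`. -/
theorem PA_hi {ρ u v J : ℝ} (h0 : 7 / 10 ≤ ρ) (h1 : ρ ≤ 4 / 5) (huv : |u| + |v| ≤ 1)
    (hJ0 : 0 ≤ J) (hJ1 : J ≤ 573 / 1000) :
    (1 + J ^ 2 / 10) * v ^ 2 ≤ (Gf ρ u v / (Real.log 2 - Lam ρ)) *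
      (Gf ρ u v / (Real.log 2 - Lam ρ)
        + 2 * (Lam ρ * J ^ 2 + cf u v) / (Real.log 2 - Lam ρ + 2 * Lam ρ * J)) := by
  rcases lt_or_ge |u| 1 with hu | hu
  · obtain ⟨a, q, ha0, ha1, hq0, hq1, hva, hG, hK⟩ := atom_hi h0 h1 huv hu
    have hρ0 : 0 ≤ ρ := by linarith
    have hρ1 : ρ < 1 := by linarith
    obtain ⟨hh0, hh1, hc1, hc2⟩ := consts_hi h0 h1
    have hlam0 : 0 ≤ Lam ρ := Lam_nonneg hρ0 hρ1.le
    have hL0 : (0.6931471 : ℝ) < Real.log 2 := by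
      have := Real.log_two_gt_d9; linarith
    have hL1 : Real.log 2 < 0.6931472 := by
      have := Real.log_two_lt_d9; linarith
    have hc0 := cf_nonneg huv
    set h := Real.log 2 - Lam ρ with hh
    have hlam : Lam ρ = Real.log 2 - h := by rw [hh]; ring
    have hhpos : 0 < h := by linarith
    have hR : 0 < h + 2 * Lam ρ * J := by positivity
    set x := Gf ρ u v / h with hx
    have hhx : h * x = Gf ρ u v := by rw [hx]; field_simp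
    have hξ : 0 ≤ 1 + a / 10 - (1 + a) * q / 10 := by nlinarith
    have hx1 : 0 ≤ (1 - a) * (1 + a / 10 - (1 + a) * q / 10) :=
      mul_nonneg (by linarith) hξ
    have hx1x : (1 - a) * (1 + a / 10 - (1 + a) * q / 10) ≤ x := by
      rw [hx, le_div_iff₀ hhpos]; linarith
    have hmono := psi_mono (h := h) (lam := Lam ρ) (J := J)
      (x := x) (x1 := (1 - a) * (1 + a / 10 - (1 + a) * q / 10)) (c := cf u v)
      (K0 := h + Lam ρ * (a ^ 2 + q * (1 - a ^ 2) ^ 2) - Real.log 2 * a ^ 2 * q)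
      hhpos.le hlam0 hJ0 hx1 hx1x hc0 (by rw [hhx]; exact hK)
    have hpoly := PA_poly (L := Real.log 2) (h := h) (a := a) (q := q) (J := J)
      hL0 hL1 hh0 hh1 ha0 ha1 hq0 hq1 hJ0 hJ1
    rw [← hlam] at hpoly
    have hpoly2 := mul_le_mul_of_nonneg_left hpoly (by linarith : 0 ≤ 1 - a)
    have hfin : (1 + J ^ 2 / 10) * v ^ 2 * (h + 2 * Lam ρ * J)
        ≤ x * ((h + 2 * Lam ρ * J) * x + 2 * Lam ρ * J ^ 2 + 2 * cf u v) := by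
      refine le_trans (le_of_eq ?_) (le_trans hpoly2 (le_trans (le_of_eq ?_) hmono))
      · rw [hva]; ring
      · ring
    have hrw : x * (x + 2 * (Lam ρ * J ^ 2 + cf u v) / (h + 2 * Lam ρ * J))
        = x * ((h + 2 * Lam ρ * J) * x + 2 * Lam ρ * J ^ 2 + 2 * cf u v) / (h + 2 * Lam ρ * J) := by
      field_simp
      ring
    rw [hrw, le_div_iff₀ hR]
    exact hfin
  · have hv := v_zero_of huv hu
    rw [hv, Gf_zero]; simp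

end Vale.Agent.Lib.P322.Pot
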