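import Vale.Agent.Lib.P322.Pot.Frame

/-!
P322, potential method.  The frame of `Frame.lean` with the one-coordinate inequality itself as hypothesis.
-/

namespace Vale.Agent.Lib.P322.Pot

open Real Finset Vale.Agent.Lib.P322

/-- The one-coordinate inequality at correlation `ρ` (the conclusion of `star_gen`). -/
def StarHyp (ρ : ℝ) : Prop :=
  ∀ (m : ℕ) (u v : Cube m → ℝ), (∀ x, |u x| + |v x| ≤ 1) →
    Lam (avg u) + avg (fun x => cf (u x) (v x)) ≤ Real.log 2 →
    (1 - ρ ^ 2) * Lam ρ * (1 + Jb (Lam ρ) (Lam (avg u) + avg (fun x => cf (u x) (v x))))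
      < ρ ^ 2 * (Real.log 2 - Lam ρ) →
    (Lam (avg u + ρ * avg v) + Lam (avg u - ρ * avg v)) / 2 - Lam (avg u) ≤
      Lam ρ * (avg (fun x => Gf ρ (u x) (v x)) / (Real.log 2 - Lam ρ)) *
        (avg (fun x => Gf ρ (u x) (v x)) / (Real.log 2 - Lam ρ)
          + 2 * Jb (Lam ρ) (Lam (avg u) + avg (fun x => cf (u x) (v x))))

/-- Copy of `soft_gen_step`; the only change is `hst := hS m u v huv _ _` in place of `star_gen`. -/
lemma soft_gen2_step {ε : ℝ} (h0 : 0 < ε) (h1 : ε ≤ 1 / 2) (hS : StarHyp (1 - 2 * ε)) (m : ℕ)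
    (ih : ∀ (G : Cube m → ℝ), (∀ x, |G x| ≤ 1) →
      avg (fun y => Lam (noiseOp ε G y)) - Lam (avg G) ≤
        Lam (1 - 2 * ε) * (1 - Jb (Lam (1 - 2 * ε))
          (Real.log 2 - (avg (fun x => Lam (G x)) - Lam (avg G))) ^ 2))
    (G : Cube (m + 1) → ℝ) (hG : ∀ x, |G x| ≤ 1) :
      avg (fun y => Lam (noiseOp ε G y)) - Lam (avg G) ≤
        Lam (1 - 2 * ε) * (1 - Jb (Lam (1 - 2 * ε))
          (Real.log 2 - (avg (fun x => Lam (G x)) - Lam (avg G))) ^ 2) := by
  obtain ⟨ρ, hρ⟩ : ∃ ρ : ℝ, ρ = 1 - 2 * ε := ⟨_, rfl⟩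
  have hρ0 : 0 ≤ ρ := by rw [hρ]; linarith
  have hρ1 : ρ < 1 := by rw [hρ]; linarith
  have hl0 : 0 ≤ Lam ρ := Lam_nonneg hρ0 hρ1.le
  have hl1 : Lam ρ < Real.log 2 := Lam_lt_log_two' hρ0 hρ1
  have hJen := Lam_avg_le G hG
  have hres := resid_nonneg G hG
  rcases le_or_gt (ρ ^ 2 * (Real.log 2 - Lam ρ)) ((1 - ρ ^ 2) * Lam ρ *
      (1 + Jb (Lam ρ) (Real.log 2 - (avg (fun x => Lam (G x)) - Lam (avg G))))) with hcut | hcut
  · -- strong data processing
    have hs := sdpi_Lam h0.le h1 G hG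
    have hJ1 : Jb (Lam ρ) (Real.log 2 - (avg (fun x => Lam (G x)) - Lam (avg G))) ≤ 1 :=
      Jb_le_one hl0 hl1 hres (by linarith)
    have hc := cut_real (ρ := ρ) (lam := Lam ρ)
      (J := Jb (Lam ρ) (Real.log 2 - (avg (fun x => Lam (G x)) - Lam (avg G))))
      (t := avg (fun x => Lam (G x)) - Lam (avg G)) hJ1
      (by rw [ub_Jb hl0 hl1 hres]; ring) hcut
    rw [← hρ] at hs ⊢
    linarith
  obtain ⟨u, hu⟩ : ∃ u : Cube m → ℝ, u = fun x => (slice G 0 1 x + slice G 0 (-1) x) / 2 :=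
    ⟨_, rfl⟩
  obtain ⟨v, hv⟩ : ∃ v : Cube m → ℝ, v = fun x => (slice G 0 1 x - slice G 0 (-1) x) / 2 :=
    ⟨_, rfl⟩
  have huv : ∀ x, |u x| + |v x| ≤ 1 := by
    intro x
    rw [hu, hv]
    exact abs_half_add (hG _) (hG _)
  have hGp : mixSlice ε G 0 1 = fun x => u x + ρ * v x := by
    funext x; rw [mixSlice_one, hu, hv, hρ]
  have hGm : mixSlice ε G 0 (-1) = fun x => u x - ρ * v x := by
    funext x; rw [mixSlice_neg_one, hu, hv, hρ]
  have hbp : ∀ x, |u x + ρ * v x| ≤ 1 := fun x => (abs_add_mul_le hρ0 hρ1.le (huv x)).1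
  have hbm : ∀ x, |u x - ρ * v x| ≤ 1 := fun x => (abs_add_mul_le hρ0 hρ1.le (huv x)).2
  have A1 : avg (fun y => Lam (noiseOp ε G y))
      = (avg (fun y => Lam (noiseOp ε (fun x => u x + ρ * v x) y))
        + avg (fun y => Lam (noiseOp ε (fun x => u x - ρ * v x) y))) / 2 := by
    rw [avg_succ 0]
    have e : ∀ w : ℤˣ, slice (fun y => Lam (noiseOp ε G y)) 0 w
        = fun y' => Lam (noiseOp ε (mixSlice ε G 0 w) y') := by
      intro w; funext y'; unfold slice; beta_reduce; rw [noiseOp_insertNth']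
    rw [e, e, hGp, hGm]
  have A2 : avg G = avg u := by
    rw [avg_succ 0 G, hu, avg_div_const, avg_add]
  have A3 : avg (fun x => Lam (G x))
      = avg (fun x => (Lam (u x + v x) + Lam (u x - v x)) / 2) := by
    rw [avg_succ 0, avg_div_const, avg_add]
    have e1 : (fun x => Lam (u x + v x)) = slice (fun x => Lam (G x)) 0 1 := by
      funext x; rw [hu, hv]; unfold slice; beta_reduce; congr 1; ring
    have e2 : (fun x => Lam (u x - v x)) = slice (fun x => Lam (G x)) 0 (-1) := by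
      funext x; rw [hu, hv]; unfold slice; beta_reduce; congr 1; ring
    rw [e1, e2]
  have A4 : avg (fun x => u x + ρ * v x) = avg u + ρ * avg v := by
    rw [avg_add, avg_const_mul]
  have A5 : avg (fun x => u x - ρ * v x) = avg u - ρ * avg v := by
    rw [avg_sub, avg_const_mul]
  have A6 : avg (fun x => cf (u x) (v x))
      = Real.log 2 - avg (fun x => (Lam (u x + v x) + Lam (u x - v x)) / 2) := by
    unfold cf; rw [avg_sub, avg_const]
  have A7 : avg (fun x => Gf ρ (u x) (v x))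
      = avg (fun x => (Lam (u x + v x) + Lam (u x - v x)) / 2)
        - (avg (fun x => Lam (u x + ρ * v x)) + avg (fun x => Lam (u x - ρ * v x))) / 2 := by
    unfold Gf
    rw [avg_sub]
    congr 1
    rw [avg_div_const, avg_add]
  have ihp := ih _ hbp
  have ihm := ih _ hbm
  have hr : Lam (avg u) + avg (fun x => cf (u x) (v x))
      = Real.log 2 - (avg (fun x => Lam (G x)) - Lam (avg G)) := by
    rw [A6, A3, A2]; ring
  rw [← hρ] at hS
  have hst := hS m u v huv (by rw [hr]; linarith) (by rw [hr]; exact hcut)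
  rw [hr] at hst
  rw [← hρ] at ihp ihm ⊢
  have key := step_real (lam := Lam ρ)
    (r := Real.log 2 - (avg (fun x => Lam (G x)) - Lam (avg G)))
    (rp := Real.log 2 - (avg (fun x => Lam (u x + ρ * v x)) - Lam (avg (fun x => u x + ρ * v x))))
    (rm := Real.log 2 - (avg (fun x => Lam (u x - ρ * v x)) - Lam (avg (fun x => u x - ρ * v x))))
    (α := (Lam (avg u + ρ * avg v) + Lam (avg u - ρ * avg v)) / 2 - Lam (avg u))
    (γ := avg (fun x => Gf ρ (u x) (v x)))
    (sp := avg (fun y => Lam (noiseOp ε (fun x => u x + ρ * v x) y))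
      - Lam (avg (fun x => u x + ρ * v x)))
    (sm := avg (fun y => Lam (noiseOp ε (fun x => u x - ρ * v x) y))
      - Lam (avg (fun x => u x - ρ * v x)))
    hl0 hl1 hres (resid_nonneg _ hbp) (resid_nonneg _ hbm)
    (avg_nonneg fun x => Gf_nonneg' hρ0 hρ1.le (huv x))
    (by rw [A7, A4, A5, A3, A2]; ring) ihp ihm hst
  rw [A4, A5] at key
  rw [A1, A2]
  rw [A2] at key
  linarith

/-- Copy of `soft_gen`. -/
theorem soft_gen2 {ε : ℝ} (h0 : 0 < ε) (h1 : ε ≤ 1 / 2) (hS : StarHyp (1 - 2 * ε)) :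
    ∀ (n : ℕ) (G : Cube n → ℝ), (∀ x, |G x| ≤ 1) →
      avg (fun y => Lam (noiseOp ε G y)) - Lam (avg G) ≤
        Lam (1 - 2 * ε) * (1 - Jb (Lam (1 - 2 * ε))
          (Real.log 2 - (avg (fun x => Lam (G x)) - Lam (avg G))) ^ 2) := by
  intro n
  induction n with
  | zero =>
    intro G _
    have hl0 : 0 ≤ Lam (1 - 2 * ε) := Lam_nonneg (by linarith) (by linarith)
    have hl1 : Lam (1 - 2 * ε) < Real.log 2 := Lam_lt_log_two' (by linarith) (by linarith)
    rw [avg_zero, avg_zero, avg_zero, noiseOp_zero, sub_self, sub_zero, Jb_log_two hl0 hl1]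
    simp
  | succ m ih => exact soft_gen2_step h0 h1 hS m ih

/-- Copy of `ck_gen`. -/
theorem ck_gen2 {ε : ℝ} (h0 : 0 < ε) (h1 : ε ≤ 1 / 2) (hS : StarHyp (1 - 2 * ε)) {n : ℕ}
    (f : Cube n → ℤˣ) : infoFY ε f ≤ 1 - h2 ε := by
  have hlog : 0 < Real.log 2 := Real.log_pos (by norm_num)
  have hl0 : 0 ≤ Lam (1 - 2 * ε) := Lam_nonneg (by linarith) (by linarith)
  have hF := infoFY_formula (ε := ε) (by linarith) (by linarith) f
  have hG : ∀ x, |2 * ind f 1 x - 1| ≤ 1 := by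
    intro x
    rcases ind_zero_or_one f 1 x with h | h <;> rw [h] <;> norm_num
  have hS' := soft_gen2 h0 h1 hS n (fun x => 2 * ind f 1 x - 1) hG
  have e1 : ∀ y, noiseOp ε (fun x => 2 * ind f 1 x - 1) y = 2 * noiseOp ε (ind f 1) y - 1 := by
    intro y
    have h1 : (fun x => 2 * ind f 1 x - 1)
        = fun x => (fun x => 2 * ind f 1 x) x + (fun _ => (-1 : ℝ)) x := by
      funext x; ring
    rw [h1, noiseOp_add, noiseOp_const, noiseOp_const_mul]; ring
  have e2 : avg (fun x => 2 * ind f 1 x - 1) = 2 * avg (ind f 1) - 1 := by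
    rw [avg_sub, avg_const, avg_const_mul]
  have e3 : avg (fun y => bent (noiseOp ε (ind f 1) y))
      = avg (fun y => Lam (noiseOp ε (fun x => 2 * ind f 1 x - 1) y)) - Real.log 2 := by
    simp only [bent_eq_Lam, e1]
    rw [avg_sub, avg_const]
  rw [e3, bent_eq_Lam, ← e2] at hF
  rw [one_sub_h2, le_div_iff₀ hlog, hF]
  have hsq := sq_nonneg (Jb (Lam (1 - 2 * ε)) (Real.log 2
    - (avg (fun x => Lam (2 * ind f 1 x - 1)) - Lam (avg fun x => 2 * ind f 1 x - 1))))
  nlinarith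

end Vale.Agent.Lib.P322.Pot
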