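import Mathlib

/-!
P322, potential method, range `7/10 ≤ ρ ≤ 4/5`.  The scalar inequality that takes care of the mean `μ`.
Here `L` stands for `log 2`, `h` for `log 2 - Lam ρ`; `x = Jb (avg c)`, `J = Jb (Lam μ + avg c)`, `δ = J - x`.
-/

namespace Vale.Agent.Lib.P322.Pot

lemma PB_edge_polyA {x : ℝ} (hx0 : 0 ≤ x) (hx1 : x ≤ 427 / 1000) :
    ((573 / 1000 - x) * (423 / 1000 + (0.6931472 - 423 / 1000) * (573 / 1000 + x)) + x ^ 2 / 48)
        * (1 + x ^ 2 / 10)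
      ≤ (2000 / 1573 * (573 / 1000 - x) + x ^ 2 / 10) * (1 / 2 + x / 12) := by
  have hy : 0 ≤ 427 / 1000 - x := by linarith
  have b0 := pow_nonneg hy 4
  have b1 := mul_nonneg hx0 (pow_nonneg hy 3)
  have b2 := mul_nonneg (pow_nonneg hx0 2) (pow_nonneg hy 2)
  have b3 := mul_nonneg (pow_nonneg hx0 3) hy
  have b4 := pow_nonneg hx0 4
  nlinarith [b0, b1, b2, b3, b4]

lemma PB_edge_polyB {x : ℝ} (hx0 : 427 / 1000 ≤ x) (hx1 : x ≤ 573 / 1000) :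
    ((573 / 1000 - x) * (3245 / 10000 + (0.6931472 - 3245 / 10000) * (573 / 1000 + x)) + x ^ 2 / 48)
        * (1 + x ^ 2 / 10)
      ≤ (2000 / 1573 * (573 / 1000 - x) + x ^ 2 / 10) * (1 / 2 + x / 12) := by
  have hy : 0 ≤ 573 / 1000 - x := by linarith
  have hz : 0 ≤ x - 427 / 1000 := by linarith
  have b0 := pow_nonneg hy 4
  have b1 := mul_nonneg hz (pow_nonneg hy 3)
  have b2 := mul_nonneg (pow_nonneg hz 2) (pow_nonneg hy 2)
  have b3 := mul_nonneg (pow_nonneg hz 3) hy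
  have b4 := pow_nonneg hz 4
  nlinarith [b0, b1, b2, b3, b4]

/-- One variable.  Numerically right side minus left side is `≥ 0.0019` on `[0, 0.573]` (minimum near `x = 0.39`, `h = 0.423`;
near `x = 0.44` for `h = 0.3245`); the difference is affine in `h` and in `L`.  Clear the denominator `1 + x^2/10 > 0`. -/
lemma PB_edge {L h x : ℝ} (hL0 : 0.6931471 < L) (hL1 : L < 0.6931472)
    (hh0 : 3245 / 10000 ≤ h) (hh1 : h ≤ 423 / 1000) (hx0 : 0 ≤ x) (hx1 : x ≤ 573 / 1000) :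
    (573 / 1000 - x) * (h + (L - h) * (573 / 1000 + x)) + x ^ 2 / 48
      ≤ (2 * (573 / 1000 - x) / (1 + 573 / 1000) + x ^ 2 / 10) / (1 + x ^ 2 / 10) * (1 / 2 + x / 12) := by
  have hD : 0 < 1 + x ^ 2 / 10 := by positivity
  have e1 : 2 * (573 / 1000 - x) / (1 + 573 / 1000) = 2000 / 1573 * (573 / 1000 - x) := by
    norm_num
    ring
  rw [e1, div_mul_eq_mul_div, le_div_iff₀ hD]
  have hax : 0 ≤ 573 / 1000 - x := by linarith
  rcases le_total x (427 / 1000) with hc | hc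
  · refine le_trans ?_ (PB_edge_polyA hx0 hc)
    apply mul_le_mul_of_nonneg_right _ hD.le
    have : (573 / 1000 - x) * (h + (L - h) * (573 / 1000 + x))
        ≤ (573 / 1000 - x) * (423 / 1000 + (0.6931472 - 423 / 1000) * (573 / 1000 + x)) := by
      apply mul_le_mul_of_nonneg_left _ hax
      nlinarith [mul_nonneg (sub_nonneg.2 hh1) (by linarith : (0:ℝ) ≤ 427 / 1000 - x),
        mul_nonneg (sub_nonneg.2 hL1.le) (by linarith : (0:ℝ) ≤ 573 / 1000 + x)]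
    linarith
  · refine le_trans ?_ (PB_edge_polyB hc hx1)
    apply mul_le_mul_of_nonneg_right _ hD.le
    have : (573 / 1000 - x) * (h + (L - h) * (573 / 1000 + x))
        ≤ (573 / 1000 - x) * (3245 / 10000 + (0.6931472 - 3245 / 10000) * (573 / 1000 + x)) := by
      apply mul_le_mul_of_nonneg_left _ hax
      nlinarith [mul_nonneg (sub_nonneg.2 hh0) (by linarith : (0:ℝ) ≤ x - 427 / 1000),
        mul_nonneg (sub_nonneg.2 hL1.le) (by linarith : (0:ℝ) ≤ 573 / 1000 + x)]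
    linarith

/-- Reduction to the two ends `δ = 0` and `δ = δm = 573/1000 - x`.  With `S = 1 + x`, `p = x^2/10`, `k = (1/2 + x/12)/(1 + p)`, `lam = L - h`,
`N δ = k (2 δ + p (S + δ)) - (x^2/48 + δ (h + lam (2 x + δ))) (S + δ)` is (right side minus left side) times `S + δ > 0`, and
`δm N δ = (δm - δ) N 0 + δ N δm + δm δ (δm - δ) (lam (δm + δ) + (h + 2 lam x) + lam S)` (an identity, by `ring`).
`N 0 = S (k p - x^2/48) ≥ 0` because `k ≥ (1/2)/(1 + 1/30) > 10/48`; `N δm ≥ 0` is `PB_edge`.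
(If `δm = 0` then `δ = 0`.) -/
lemma PB_poly {L h x δ : ℝ} (hL0 : 0.6931471 < L) (hL1 : L < 0.6931472)
    (hh0 : 3245 / 10000 ≤ h) (hh1 : h ≤ 423 / 1000) (hx0 : 0 ≤ x) (hδ0 : 0 ≤ δ)
    (hxδ : x + δ ≤ 573 / 1000) :
    δ * (h + (L - h) * (2 * x + δ)) + x ^ 2 / 48
      ≤ (2 * δ / (1 + x + δ) + x ^ 2 / 10) / (1 + x ^ 2 / 10) * (1 / 2 + x / 12) := by
  have hx1 : x ≤ 573 / 1000 := by linarith
  have hD : 0 < 1 + x ^ 2 / 10 := by positivity
  obtain ⟨k, hk⟩ : ∃ k, k = (1 / 2 + x / 12) / (1 + x ^ 2 / 10) := ⟨_, rfl⟩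
  have hk' : k * (1 + x ^ 2 / 10) = 1 / 2 + x / 12 := by
    rw [hk]; field_simp
  have hk0 : 10 / 48 ≤ k := by
    rw [hk, le_div_iff₀ hD]
    nlinarith
  obtain ⟨dm, hdm⟩ : ∃ dm, dm = 573 / 1000 - x := ⟨_, rfl⟩
  have hdm0 : 0 ≤ dm := by rw [hdm]; linarith
  have hδdm : δ ≤ dm := by rw [hdm]; linarith
  have hlam : 0 ≤ L - h := by linarith
  have hh : 0 ≤ h := by linarith
  -- the numerator
  obtain ⟨N, hN⟩ : ∃ N : ℝ → ℝ, ∀ t, N t = k * (2 * t + x ^ 2 / 10 * (1 + x + t))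
      - (x ^ 2 / 48 + t * (h + (L - h) * (2 * x + t))) * (1 + x + t) := ⟨_, fun _ => rfl⟩
  have conv : ∀ t, 0 ≤ t →
      ((2 * t / (1 + x + t) + x ^ 2 / 10) / (1 + x ^ 2 / 10) * (1 / 2 + x / 12)
        - (t * (h + (L - h) * (2 * x + t)) + x ^ 2 / 48)) * (1 + x + t) = N t := by
    intro t ht
    have hS : (1 + x + t) ≠ 0 := by positivity
    have e : (2 * t / (1 + x + t) + x ^ 2 / 10) / (1 + x ^ 2 / 10) * (1 / 2 + x / 12)
        = (2 * t / (1 + x + t) + x ^ 2 / 10) * k := by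
      rw [hk]; ring
    rw [e, hN]
    field_simp
    ring
  have hN0 : 0 ≤ N 0 := by
    rw [hN]
    have : k * (2 * 0 + x ^ 2 / 10 * (1 + x + 0))
      - (x ^ 2 / 48 + 0 * (h + (L - h) * (2 * x + 0))) * (1 + x + 0)
      = (1 + x) * x ^ 2 * (k / 10 - 1 / 48) := by ring
    rw [this]
    have : 0 ≤ k / 10 - 1 / 48 := by linarith
    positivity
  have hNm : 0 ≤ N dm := by
    rw [← conv dm hdm0]
    have hE := PB_edge hL0 hL1 hh0 hh1 hx0 hx1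
    have e1 : (573 : ℝ) / 1000 + x = 2 * x + dm := by rw [hdm]; ring
    have e2 : (1 : ℝ) + 573 / 1000 = 1 + x + dm := by rw [hdm]; ring
    rw [e1, e2, ← hdm] at hE
    have : 0 ≤ 1 + x + dm := by positivity
    exact mul_nonneg (by linarith) this
  have hid : dm * N δ = (dm - δ) * N 0 + δ * N dm
      + dm * δ * (dm - δ) * ((L - h) * (dm + δ) + (h + 2 * (L - h) * x) + (L - h) * (1 + x)) := by
    rw [hN, hN, hN]; ring
  have hNδ : 0 ≤ N δ := by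
    rcases hdm0.eq_or_lt with h0 | h0
    · have : δ = 0 := by linarith
      rw [this]; exact hN0
    · have h1 : 0 ≤ dm - δ := by linarith
      have h2 : 0 ≤ dm * N δ := by
        rw [hid]
        positivity
      exact nonneg_of_mul_nonneg_right h2 h0
  rw [← conv δ hδ0] at hNδ
  have hS : 0 < 1 + x + δ := by positivity
  have := nonneg_of_mul_nonneg_left hNδ hS
  linarith

/-- Put `δ = J - x`, `m = μ^2`, `ms = (2 δ/(1 + x + δ) + x^2/10)/(1 + x^2/10) ≥ 0`.  By `hlow`, `hΛ`, `PB_poly` and `(ms - x/2)^2 ≥ 0`: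
`m/2 + m^2/12 ≤ δ (h + (L-h)(2x+δ)) ≤ ms (1/2 + x/12) - x^2/48 ≤ ms/2 + ms^2/12`, hence `m ≤ ms`.
By the definition of `ms`: `(1 + x^2/10)(1 - ms)(1 + x + δ) = 1 + x - δ`.  Let `k = (1 + x^2/10)(1 - m) ≥ (1 + x^2/10)(1 - ms)`.
If `k ≥ 1` the claim is clear (`x ≤ J`).  If `k < 1`:
`k (b + 2J) - (b + 2x) ≥ k (1 + J) - (1 - J + 2 x) = k (1 + x + δ) - (1 + x - δ) ≥ 0` (use `b ≤ 1 - J`). -/
theorem PB_hi {L h μ Lm x J b : ℝ} (hL0 : 0.6931471 < L) (hL1 : L < 0.6931472)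
    (hh0 : 3245 / 10000 ≤ h) (hh1 : h ≤ 423 / 1000) (hx0 : 0 ≤ x) (hxJ : x ≤ J)
    (hJ : J ≤ 573 / 1000) (hΛ : Lm = (J - x) * (h + (L - h) * (J + x)))
    (hlow : μ ^ 2 / 2 + (μ ^ 2) ^ 2 / 12 ≤ Lm) (hb0 : 0 ≤ b) (hb1 : b ≤ 1 - J) :
    b + 2 * x ≤ (1 + x ^ 2 / 10) * (1 - μ ^ 2) * (b + 2 * J) := by
  obtain ⟨δ, hδ⟩ : ∃ δ, δ = J - x := ⟨_, rfl⟩
  have hJe : J = x + δ := by rw [hδ]; ring
  have hδ0 : 0 ≤ δ := by rw [hδ]; linarith
  obtain ⟨m, hm⟩ : ∃ m, m = μ ^ 2 := ⟨_, rfl⟩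
  have hm0 : 0 ≤ m := by rw [hm]; positivity
  rw [← hm] at hlow ⊢
  have hD : 0 < 1 + x ^ 2 / 10 := by positivity
  have hS : 0 < 1 + x + δ := by positivity
  obtain ⟨ms, hms⟩ : ∃ ms, ms = (2 * δ / (1 + x + δ) + x ^ 2 / 10) / (1 + x ^ 2 / 10) := ⟨_, rfl⟩
  have hms0 : 0 ≤ ms := by rw [hms]; positivity
  have hP := PB_poly hL0 hL1 hh0 hh1 hx0 hδ0 (by linarith : x + δ ≤ 573 / 1000)
  rw [← hms] at hP
  have hL : Lm = δ * (h + (L - h) * (2 * x + δ)) := by rw [hΛ, hJe]; ring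
  have h1 : m / 2 + m ^ 2 / 12 ≤ ms / 2 + ms ^ 2 / 12 := by
    nlinarith [sq_nonneg (ms - x / 2)]
  have hmms : m ≤ ms := by
    by_contra hc
    push Not at hc
    nlinarith
  have h2 : (1 + x ^ 2 / 10) * (1 - ms) * (1 + x + δ) = 1 + x - δ := by
    rw [hms]
    field_simp
    ring
  obtain ⟨k, hk⟩ : ∃ k, k = (1 + x ^ 2 / 10) * (1 - m) := ⟨_, rfl⟩
  have hk1 : (1 + x ^ 2 / 10) * (1 - ms) ≤ k := by
    rw [hk]
    apply mul_le_mul_of_nonneg_left _ hD.le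
    linarith
  rw [← hk]
  rcases le_or_gt 1 k with hk2 | hk2
  · have : 0 ≤ b + 2 * J := by linarith
    nlinarith
  · have h3 : 1 + x - δ ≤ k * (1 + x + δ) := by
      rw [← h2]
      exact mul_le_mul_of_nonneg_right hk1 hS.le
    have h4 : (1 - k) * b ≤ (1 - k) * (1 - J) :=
      mul_le_mul_of_nonneg_left hb1 (by linarith)
    rw [hJe] at h4 ⊢
    nlinarith

end Vale.Agent.Lib.P322.Pot
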