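import Vale.Agent.Lib.P322.Pot.Hi.Frame2
import Vale.Agent.Lib.P322.Pot.Hi.Atom
import Vale.Agent.Lib.P322.Pot.Hi.PB
import Vale.Agent.Lib.P322.Pot.Mid.Point2

/-!
P322, potential method, range `7/10 ≤ ρ ≤ 4/5`.  The one-coordinate inequality and the Courtade-Kumar inequality for
`1/10 ≤ ε ≤ 1/2`.
-/

namespace Vale.Agent.Lib.P322.Pot

open Real Finset Vale.Agent.Lib.P322

/-- Jensen for the two children: `(Lam (μ + ρ ν) + Lam (μ - ρ ν))/2 ≤ avg ((Lam (u + ρ v) + Lam (u - ρ v))/2)`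
(`Lam_avg_le` for `u + ρ v` and `u - ρ v`, which are bounded by `1` by `abs_add_mul_le`), rewritten with the definitions of `cf`, `Gf`. -/
lemma alpha_le_resid {ρ : ℝ} (hρ0 : 0 ≤ ρ) (hρ1 : ρ ≤ 1) {m : ℕ} (u v : Cube m → ℝ)
    (huv : ∀ x, |u x| + |v x| ≤ 1) :
    (Lam (avg u + ρ * avg v) + Lam (avg u - ρ * avg v)) / 2
      ≤ Real.log 2 - avg (fun x => cf (u x) (v x)) - avg (fun x => Gf ρ (u x) (v x)) := by
  have hbp : ∀ x, |u x + ρ * v x| ≤ 1 := fun x => (abs_add_mul_le hρ0 hρ1 (huv x)).1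
  have hbm : ∀ x, |u x - ρ * v x| ≤ 1 := fun x => (abs_add_mul_le hρ0 hρ1 (huv x)).2
  have A4 : avg (fun x => u x + ρ * v x) = avg u + ρ * avg v := by
    rw [avg_add, avg_const_mul]
  have A5 : avg (fun x => u x - ρ * v x) = avg u - ρ * avg v := by
    rw [avg_sub, avg_const_mul]
  have A6 : avg (fun x => cf (u x) (v x))
      = Real.log 2 - avg (fun x => (Lam (u x + v x) + Lam (u x - v x)) / 2) := by
    unfold cf; rw [avg_sub, avg_const]
  have A7 : avg (fun x => Gf ρ (u x) (v x))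
      = avg (fun x => (Lam (u x + v x) + Lam (u x - v x)) / 2)
        - (avg (fun x => Lam (u x + ρ * v x)) + avg (fun x => Lam (u x - ρ * v x))) / 2 := by
    unfold Gf
    rw [avg_sub]
    congr 1
    rw [avg_div_const, avg_add]
  have j1 := Lam_avg_le _ hbp
  have j2 := Lam_avg_le _ hbm
  rw [A4] at j1
  rw [A5] at j2
  rw [A6, A7]
  linarith

/-- Symbols as in `star_gen`: `μ = avg u`, `ν = avg v`, `lam = Lam ρ`, `h = log 2 - lam`, `C = avg c`, `b = avg Gf / h`,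
`J = Jb lam (Lam μ + C)`, and `x = Jb lam C` (so `0 ≤ x ≤ J`, `ub x = C`, `ub J = Lam μ + C`, `J ≤ 573/1000` by `Jc_hi`).
If `|μ| = 1` then `ν = 0`.  Otherwise:
Case `1 - J ≤ b`: by `alpha_le_resid` the left side is `≤ log 2 - (Lam μ + C) - h b = h (1 - J - b) + lam (1 - J^2) ≤ lam (1 - J^2)
≤ lam ((b + J)^2 - J^2)`.
Case `b < 1 - J`: with `R = h + 2 lam x`, `Z_i = (x_i + 2 (lam x^2 + c_i)/R)/(1 + x^2/10)`, `PA_hi` gives `v_i^2 ≤ x_i Z_i`, so `avg_sq_le` gives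
`ν^2 ≤ b avg Z = b (b + 2 x)/(1 + x^2/10)` (because `lam x^2 + C = x R`); `PB_hi` (with `Lm = Lam μ = ub J - ub x`,
`hlow` from `Lam_poly_le`) gives `b + 2 x ≤ (1 + x^2/10)(1 - μ^2)(b + 2 J)`; hence `ν^2/(1-μ^2) ≤ b (b + 2J)`; conclude by `eS_upper`
as in `star_gen`. -/
theorem star_hi {ρ : ℝ} (h0 : 7 / 10 ≤ ρ) (h1 : ρ ≤ 4 / 5) : StarHyp ρ := by
  intro m u v huv hle hcut
  have hρ0 : 0 ≤ ρ := by linarith
  have hρ1 : ρ < 1 := by linarith
  have hl0 : 0 ≤ Lam ρ := Lam_nonneg hρ0 hρ1.le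
  have hl1 : Lam ρ < Real.log 2 := Lam_lt_log_two' hρ0 hρ1
  have hh : 0 < Real.log 2 - Lam ρ := by linarith
  obtain ⟨hc1, hc2, -, -⟩ := consts_hi h0 h1
  have hres := alpha_le_resid hρ0 hρ1.le u v huv
  have hμν := abs_avg_add_le u v huv
  set μ := avg u with hμ
  set ν := avg v with hν
  set lam := Lam ρ with hlam
  have hμ1 : |μ| ≤ 1 := by linarith [abs_nonneg ν]
  have hμ1' := abs_le.mp hμ1
  have hLμ : 0 ≤ Lam μ := Lam_nonneg' hμ1'.1 hμ1'.2
  have hc0 : ∀ x, 0 ≤ cf (u x) (v x) := fun x => cf_nonneg (huv x)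
  have hG0 : ∀ x, 0 ≤ Gf ρ (u x) (v x) := fun x => Gf_nonneg' hρ0 hρ1.le (huv x)
  have hac : 0 ≤ avg (fun x => cf (u x) (v x)) := avg_nonneg hc0
  have haG : 0 ≤ avg (fun x => Gf ρ (u x) (v x)) := avg_nonneg hG0
  set C := avg (fun x => cf (u x) (v x)) with hC
  have hbG : avg (fun x => Gf ρ (u x) (v x))
      = (Real.log 2 - lam) * (avg (fun x => Gf ρ (u x) (v x)) / (Real.log 2 - lam)) := by
    field_simp
  set b := avg (fun x => Gf ρ (u x) (v x)) / (Real.log 2 - lam) with hb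
  have hb0 : 0 ≤ b := div_nonneg haG hh.le
  have hr : 0 ≤ Lam μ + C := by linarith
  set J := Jb lam (Lam μ + C) with hJ
  have hJ0 : 0 ≤ J := Jb_nonneg hl0 hl1 hr
  have hubJ : ub lam J = Lam μ + C := ub_Jb hl0 hl1 hr
  have hJ573 : J ≤ 573 / 1000 := Jc_hi h0 h1 hJ0 hcut
  have hrhs : 0 ≤ lam * b * (b + 2 * J) := by positivity
  have hubJ' : (Real.log 2 - lam) * J + lam * J ^ 2 = Lam μ + C := hubJ
  rcases eq_or_lt_of_le hμ1 with hμe | hμlt
  · have hν0 : ν = 0 := by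
      have : |ν| ≤ 0 := by linarith
      exact abs_eq_zero.mp (le_antisymm this (abs_nonneg _))
    rw [hν0]
    simp only [mul_zero, add_zero, sub_zero]
    linarith
  rcases le_or_gt (1 - J) b with hbJ | hbJ
  · -- the crude bound
    rw [hbG] at hres
    have e1 : 0 ≤ (Real.log 2 - lam) * (b - (1 - J)) := mul_nonneg hh.le (by linarith)
    have e2 : 0 ≤ lam * ((b + J - 1) * (b + J + 1)) :=
      mul_nonneg hl0 (mul_nonneg (by linarith) (by linarith))
    nlinarith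
  · have hsq : μ ^ 2 < 1 := (sq_lt_one_iff_abs_lt_one μ).mpr hμlt
    have hw : 0 < 1 - μ ^ 2 := by linarith
    have hup := eS_upper (ρ := ρ) (u := μ) (v := ν) hρ0 hρ1.le hμν hμlt
    obtain ⟨y, hy⟩ : ∃ y : ℝ, y = Jb lam C := ⟨_, rfl⟩
    have hy0 : 0 ≤ y := by rw [hy]; exact Jb_nonneg hl0 hl1 hac
    have huby : ub lam y = C := by rw [hy]; exact ub_Jb hl0 hl1 hac
    have huby' : (Real.log 2 - lam) * y + lam * y ^ 2 = C := huby
    have hyJ : y ≤ J := le_of_ub_le_ub hl0 hl1 hJ0 (by rw [huby, hubJ]; linarith)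
    have hy573 : y ≤ 573 / 1000 := le_trans hyJ hJ573
    have hR : 0 < Real.log 2 - lam + 2 * lam * y := by
      have : 0 ≤ 2 * lam * y := by positivity
      linarith
    set R := Real.log 2 - lam + 2 * lam * y with hRdef
    have hD : 0 < 1 + y ^ 2 / 10 := by positivity
    have hnum : ∀ x, 0 ≤ lam * y ^ 2 + cf (u x) (v x) := by
      intro x
      have h1 : 0 ≤ lam * y ^ 2 := by positivity
      linarith [hc0 x]
    have hcs := avg_sq_le v (fun x => Gf ρ (u x) (v x) / (Real.log 2 - lam))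
      (fun x => (Gf ρ (u x) (v x) / (Real.log 2 - lam)
        + 2 * (lam * y ^ 2 + cf (u x) (v x)) / R) / (1 + y ^ 2 / 10))
      (fun x => div_nonneg (hG0 x) hh.le)
      (fun x => by
        have h1 : 0 ≤ Gf ρ (u x) (v x) / (Real.log 2 - lam) := div_nonneg (hG0 x) hh.le
        have h2 : 0 ≤ 2 * (lam * y ^ 2 + cf (u x) (v x)) / R :=
          div_nonneg (by linarith [hnum x]) hR.le
        exact div_nonneg (by linarith) hD.le)
      (fun x => by
        have := PA_hi (J := y) h0 h1 (huv x) hy0 hy573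
        rw [← mul_div_assoc, le_div_iff₀ hD]
        linarith)
    rw [avg_div_const] at hcs
    have hZ : avg (fun x => (Gf ρ (u x) (v x) / (Real.log 2 - lam)
        + 2 * (lam * y ^ 2 + cf (u x) (v x)) / R) / (1 + y ^ 2 / 10))
        = (b + 2 * y) / (1 + y ^ 2 / 10) := by
      have e1 : avg (fun x => (Gf ρ (u x) (v x) / (Real.log 2 - lam)
          + 2 * (lam * y ^ 2 + cf (u x) (v x)) / R) / (1 + y ^ 2 / 10))
          = (b + 2 * (lam * y ^ 2 + C) / R) / (1 + y ^ 2 / 10) := by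
        rw [avg_div_const, avg_add, avg_div_const, avg_div_const, avg_const_mul, avg_add,
          avg_const]
      rw [e1]
      have e2 : lam * y ^ 2 + C = y * R := by
        rw [hRdef]
        linear_combination (-1 : ℝ) * huby'
      rw [e2]
      congr 2
      field_simp
    rw [hZ] at hcs
    have hlow : μ ^ 2 / 2 + (μ ^ 2) ^ 2 / 12 ≤ Lam μ := by
      have := Lam_poly_le hμ1'.1 hμ1'.2
      have p3 : 0 ≤ (μ ^ 2) ^ 3 / 30 := by positivity
      have p4 : 0 ≤ (μ ^ 2) ^ 4 / 56 := by positivity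
      have p5 : 0 ≤ (μ ^ 2) ^ 5 / 90 := by positivity
      have p6 : 0 ≤ (μ ^ 2) ^ 6 / 132 := by positivity
      linarith
    have hPB := PB_hi (L := Real.log 2) (h := Real.log 2 - lam) (μ := μ) (Lm := Lam μ) (x := y)
      (J := J) (b := b) (by linarith [Real.log_two_gt_d9]) (by linarith [Real.log_two_lt_d9])
      hc1 hc2 hy0 hyJ hJ573 (by linear_combination huby' - hubJ') hlow hb0 hbJ.le
    have hdiv : ν ^ 2 / (1 - μ ^ 2) ≤ b * (b + 2 * J) := by
      rw [div_le_iff₀ hw]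
      have h3 : (b + 2 * y) / (1 + y ^ 2 / 10) ≤ (1 - μ ^ 2) * (b + 2 * J) := by
        rw [div_le_iff₀ hD]
        linarith
      have h4 := mul_le_mul_of_nonneg_left h3 hb0
      linarith
    calc (Lam (μ + ρ * ν) + Lam (μ - ρ * ν)) / 2 - Lam μ ≤ lam * (ν ^ 2 / (1 - μ ^ 2)) := hup
      _ ≤ lam * (b * (b + 2 * J)) := mul_le_mul_of_nonneg_left hdiv hl0
      _ = lam * b * (b + 2 * J) := by ring

theorem ck_hi {ε : ℝ} (h0 : 1 / 10 ≤ ε) (h1 : ε ≤ 1 / 2) {n : ℕ} (f : Cube n → ℤˣ) :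
    infoFY ε f ≤ 1 - h2 ε := by
  rcases le_total (3 / 20) ε with h | h
  · exact ck_mid h h1 f
  · exact ck_gen2 (by linarith) h1 (star_hi (by linarith) (by linarith)) f

end Vale.Agent.Lib.P322.Pot
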