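import Vale.Agent.Lib.P322.Pot.Pointwise

/-!
P322, potential method, range `7/10 ≤ ρ ≤ 4/5`.  The one-dimensional inequality (X0)
`Lam t - Lam (ρ t) ≥ h (1 - τ)^2 + (1 - ρ^2) τ (1 - τ)`, `τ = sqrt (1 - t^2)`, `h = log 2 - Lam ρ`,
valid as soon as `(1 - ρ^2)/2 ≤ h ≤ 1 - ρ^2`, and its average over the reverse channel.
-/

namespace Vale.Agent.Lib.P322.Pot

open Real Set Vale.Agent.Lib.P322

/-- Proof sketch (same scheme as `E1_pos`, via `nonneg_of_convex_concave`).  Put `z = ρ^2`, `h = log 2 - Lam ρ`,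
`A = 2 h - (1 - z) ≥ 0`, `B = (1 - z) - h ≥ 0` (so `A + B = h`, `A + 2 B = 1 - z`).  The right side minus the left side is
`D t = Lam t - Lam (ρ t) - A (1 - sqrt (1 - t^2)) - B t^2`, because
`h (1-τ)^2 + (1-z) τ (1-τ) = A (1 - τ) + B (1 - τ^2)`.
`D 0 = 0`, `D 1 = log 2 - Lam ρ - A - B = 0`,
`D1 t = Lam1 t - ρ Lam1 (ρ t) - A t / sqrt (1 - t^2) - 2 B t`, `D1 0 = 0`,
`D2 t = 1/(1-t^2) - z/(1 - z t^2) - A / ((1-t^2) sqrt (1-t^2)) - 2 B`.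
With `τ = sqrt (1-t^2)`, `y = 1/τ ≥ 1`:
`D2 t = (y - 1) y^3 Qf t / ((1-z) y^2 + z)`,
`Qf t = - A (1-z)/τ + (1-z)(1-A) + 2 B τ + 2 B z τ^2 + 2 B z τ^3`,
and `Qf` is antitone on `[0,1)` since `τ` is antitone and positive there and `A, B, z, 1 - z ≥ 0`. -/
theorem X0_pos {ρ t : ℝ} (hρ0 : 0 ≤ ρ) (hρ1 : ρ < 1)
    (hA : 1 - ρ ^ 2 ≤ 2 * (Real.log 2 - Lam ρ)) (hB : Real.log 2 - Lam ρ ≤ 1 - ρ ^ 2)
    (h0 : 0 ≤ t) (h1 : t ≤ 1) :
    (Real.log 2 - Lam ρ) * (1 - Real.sqrt (1 - t ^ 2)) ^ 2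
      + (1 - ρ ^ 2) * Real.sqrt (1 - t ^ 2) * (1 - Real.sqrt (1 - t ^ 2))
      ≤ Lam t - Lam (ρ * t) := by
  obtain ⟨A, hAdef⟩ : ∃ A : ℝ, A = 2 * (Real.log 2 - Lam ρ) - (1 - ρ ^ 2) := ⟨_, rfl⟩
  obtain ⟨B, hBdef⟩ : ∃ B : ℝ, B = (1 - ρ ^ 2) - (Real.log 2 - Lam ρ) := ⟨_, rfl⟩
  have hA0 : 0 ≤ A := by rw [hAdef]; linarith
  have hB0 : 0 ≤ B := by rw [hBdef]; linarith
  have hAB : A + 2 * B = 1 - ρ ^ 2 := by rw [hAdef, hBdef]; ring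
  have hABh : A + B = Real.log 2 - Lam ρ := by rw [hAdef, hBdef]; ring
  have hz0 : 0 ≤ ρ ^ 2 := sq_nonneg ρ
  have hz1 : 0 < 1 - ρ ^ 2 := by nlinarith
  have hcont : Continuous (fun s : ℝ => Lam s - Lam (ρ * s) - A * (1 - Real.sqrt (1 - s ^ 2))
      - B * s ^ 2) := by
    have c1 : Continuous (fun s : ℝ => Real.sqrt (1 - s ^ 2)) := by fun_prop
    have c2 : Continuous fun s : ℝ => Lam (ρ * s) := continuous_Lam.comp (by fun_prop)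
    exact ((continuous_Lam.sub c2).sub ((continuous_const.sub c1).const_mul A)).sub (by fun_prop)
  have e : ∀ w : ℝ, 0 < w → 1 / w ^ 2 - 1 / (1 - ρ ^ 2 * (1 - w ^ 2)) * ρ * ρ
        - A * (1 / (w ^ 2 * w)) - B * 2
      = (1 - w) * (-(A * (1 - ρ ^ 2)) / w + (1 - ρ ^ 2) * (1 - A) + 2 * B * w
          + 2 * B * ρ ^ 2 * w ^ 2 + 2 * B * ρ ^ 2 * w ^ 3) / (w ^ 2 * (1 - ρ ^ 2 * (1 - w ^ 2))) := by
    intro w hw
    have hden : 0 < 1 - ρ ^ 2 * (1 - w ^ 2) := by nlinarith [mul_nonneg hz0 (sq_nonneg w)]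
    have hAe : A = 1 - ρ ^ 2 - 2 * B := by linarith
    rw [hAe]
    field_simp
    ring
  have key : ∀ s ∈ Ico (0:ℝ) 1, 0 ≤ Lam s - Lam (ρ * s) - A * (1 - Real.sqrt (1 - s ^ 2))
      - B * s ^ 2 := by
    apply nonneg_of_convex_concave
      (D1 := fun s => Lam1 s - Lam1 (ρ * s) * ρ - A * (s / Real.sqrt (1 - s ^ 2)) - B * (2 * s))
      (D2 := fun s => 1 / (1 - s ^ 2) - 1 / (1 - (ρ * s) ^ 2) * ρ * ρ
        - A * (1 / ((1 - s ^ 2) * Real.sqrt (1 - s ^ 2))) - B * 2)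
      (Qf := fun s => -(A * (1 - ρ ^ 2)) / Real.sqrt (1 - s ^ 2) + (1 - ρ ^ 2) * (1 - A)
        + 2 * B * Real.sqrt (1 - s ^ 2) + 2 * B * ρ ^ 2 * Real.sqrt (1 - s ^ 2) ^ 2
        + 2 * B * ρ ^ 2 * Real.sqrt (1 - s ^ 2) ^ 3)
    · exact hcont.continuousOn
    · intro s hs
      have hs2 : 0 < 1 - s ^ 2 := by nlinarith [hs.1, hs.2]
      have hls : ρ * s < 1 := by nlinarith [hs.1, hs.2]
      have hls0 : -1 < ρ * s := by nlinarith [hs.1, hs.2, mul_nonneg hρ0 hs.1]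
      have a := hasDerivAt_Lam (t := s) (by linarith [hs.1]) hs.2
      have b : HasDerivAt (fun s => Lam (ρ * s)) (Lam1 (ρ * s) * ρ) s := by
        have := (hasDerivAt_Lam hls0 hls).comp s (((hasDerivAt_id s).const_mul ρ))
        simpa [Function.comp_def] using this
      have c : HasDerivAt (fun s : ℝ => 1 - Real.sqrt (1 - s ^ 2))
          (s / Real.sqrt (1 - s ^ 2)) s :=
        ((hasDerivAt_sqrt_one_sub_sq hs2).const_sub 1).congr_deriv (by simp)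
      have d : HasDerivAt (fun s : ℝ => s ^ 2) (2 * s) s := by
        exact ((hasDerivAt_id s).pow 2).congr_deriv (by simp)
      exact ((a.sub b).sub (c.const_mul A)).sub (d.const_mul B)
    · intro s hs
      have hs2 : 0 < 1 - s ^ 2 := by nlinarith [hs.1, hs.2]
      have hls : ρ * s < 1 := by nlinarith [hs.1, hs.2]
      have hls0 : -1 < ρ * s := by nlinarith [hs.1, hs.2, mul_nonneg hρ0 hs.1]
      have a := hasDerivAt_Lam1 (t := s) (by linarith [hs.1]) hs.2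
      have b : HasDerivAt (fun s => Lam1 (ρ * s) * ρ) ((1 / (1 - (ρ * s) ^ 2)) * ρ * ρ) s := by
        have := ((hasDerivAt_Lam1 hls0 hls).comp s (((hasDerivAt_id s).const_mul ρ))).mul_const ρ
        simpa [Function.comp_def] using this
      have c := hasDerivAt_div_sqrt_one_sub_sq hs2
      have d : HasDerivAt (fun s : ℝ => 2 * s) 2 s := by
        exact ((hasDerivAt_id s).const_mul 2).congr_deriv (by simp)
      exact ((a.sub b).sub (c.const_mul A)).sub (d.const_mul B)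
    · intro x hx y hy hxy
      have hy2 : 0 < 1 - y ^ 2 := by nlinarith [hy.1, hy.2]
      have h2 : 1 - y ^ 2 ≤ 1 - x ^ 2 := by nlinarith [hx.1, hy.1]
      have hw : Real.sqrt (1 - y ^ 2) ≤ Real.sqrt (1 - x ^ 2) := Real.sqrt_le_sqrt h2
      have hw0 : 0 < Real.sqrt (1 - y ^ 2) := Real.sqrt_pos.2 hy2
      have hw2 : Real.sqrt (1 - y ^ 2) ^ 2 ≤ Real.sqrt (1 - x ^ 2) ^ 2 :=
        pow_le_pow_left₀ hw0.le hw 2
      have hw3 : Real.sqrt (1 - y ^ 2) ^ 3 ≤ Real.sqrt (1 - x ^ 2) ^ 3 :=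
        pow_le_pow_left₀ hw0.le hw 3
      have hinv : 1 / Real.sqrt (1 - x ^ 2) ≤ 1 / Real.sqrt (1 - y ^ 2) :=
        one_div_le_one_div_of_le hw0 hw
      have hc0 : 0 ≤ A * (1 - ρ ^ 2) := mul_nonneg hA0 hz1.le
      have t1 := mul_le_mul_of_nonneg_left hinv hc0
      have t2 := mul_le_mul_of_nonneg_left hw (by positivity : 0 ≤ 2 * B)
      have t3 := mul_le_mul_of_nonneg_left hw2 (by positivity : 0 ≤ 2 * B * ρ ^ 2)
      have t4 := mul_le_mul_of_nonneg_left hw3 (by positivity : 0 ≤ 2 * B * ρ ^ 2)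
      simp only
      rw [neg_div, neg_div, div_eq_mul_one_div (A * (1 - ρ ^ 2)),
        div_eq_mul_one_div (A * (1 - ρ ^ 2)) (Real.sqrt (1 - x ^ 2))]
      linarith
    · intro s hs hq
      have hs2 : 0 < 1 - s ^ 2 := by nlinarith [hs.1, hs.2]
      have hw : 0 < Real.sqrt (1 - s ^ 2) := Real.sqrt_pos.2 hs2
      have hsq : Real.sqrt (1 - s ^ 2) ^ 2 = 1 - s ^ 2 := Real.sq_sqrt hs2.le
      have hw1 : Real.sqrt (1 - s ^ 2) ≤ 1 := by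
        rw [Real.sqrt_le_left (by norm_num : (0:ℝ) ≤ 1)]
        nlinarith [sq_nonneg s]
      have hrs : (ρ * s) ^ 2 = ρ ^ 2 * (1 - Real.sqrt (1 - s ^ 2) ^ 2) := by rw [hsq]; ring
      rw [hrs]
      set w := Real.sqrt (1 - s ^ 2) with hwdef
      rw [← hsq, e w hw]
      have hden : 0 < 1 - ρ ^ 2 * (1 - w ^ 2) := by nlinarith [mul_nonneg hz0 (sq_nonneg w)]
      apply div_nonneg (mul_nonneg (by linarith) hq) (by positivity)
    · intro s hs hq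
      have hs2 : 0 < 1 - s ^ 2 := by nlinarith [hs.1, hs.2]
      have hw : 0 < Real.sqrt (1 - s ^ 2) := Real.sqrt_pos.2 hs2
      have hsq : Real.sqrt (1 - s ^ 2) ^ 2 = 1 - s ^ 2 := Real.sq_sqrt hs2.le
      have hw1 : Real.sqrt (1 - s ^ 2) ≤ 1 := by
        rw [Real.sqrt_le_left (by norm_num : (0:ℝ) ≤ 1)]
        nlinarith [sq_nonneg s]
      have hrs : (ρ * s) ^ 2 = ρ ^ 2 * (1 - Real.sqrt (1 - s ^ 2) ^ 2) := by rw [hsq]; ring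
      rw [hrs]
      set w := Real.sqrt (1 - s ^ 2) with hwdef
      rw [← hsq, e w hw]
      have hden : 0 < 1 - ρ ^ 2 * (1 - w ^ 2) := by nlinarith [mul_nonneg hz0 (sq_nonneg w)]
      apply div_nonpos_of_nonpos_of_nonneg
        (mul_nonpos_of_nonneg_of_nonpos (by linarith) hq) (by positivity)
    · simp
    · simp
    · rw [Lam_one]
      simp
      linarith
  have key2 := nonneg_Icc_of_Ico hcont key t ⟨h0, h1⟩
  have ht2 : 0 ≤ 1 - t ^ 2 := by nlinarith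
  have hsq : Real.sqrt (1 - t ^ 2) ^ 2 = 1 - t ^ 2 := Real.sq_sqrt ht2
  have ht : t ^ 2 = 1 - Real.sqrt (1 - t ^ 2) ^ 2 := by rw [hsq]; ring
  have hid : (Real.log 2 - Lam ρ) * (1 - Real.sqrt (1 - t ^ 2)) ^ 2
      + (1 - ρ ^ 2) * Real.sqrt (1 - t ^ 2) * (1 - Real.sqrt (1 - t ^ 2))
      = A * (1 - Real.sqrt (1 - t ^ 2)) + B * (1 - Real.sqrt (1 - t ^ 2) ^ 2) := by
    rw [← hABh, ← hAB]
    ring
  rw [hid, ← ht]
  linarith

/-- Evenness (`Lam_neg`). -/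
theorem X0 {ρ t : ℝ} (hρ0 : 0 ≤ ρ) (hρ1 : ρ < 1)
    (hA : 1 - ρ ^ 2 ≤ 2 * (Real.log 2 - Lam ρ)) (hB : Real.log 2 - Lam ρ ≤ 1 - ρ ^ 2)
    (h0 : -1 ≤ t) (h1 : t ≤ 1) :
    (Real.log 2 - Lam ρ) * (1 - Real.sqrt (1 - t ^ 2)) ^ 2
      + (1 - ρ ^ 2) * Real.sqrt (1 - t ^ 2) * (1 - Real.sqrt (1 - t ^ 2))
      ≤ Lam t - Lam (ρ * t) := by
  rcases le_total 0 t with h | h
  · exact X0_pos hρ0 hρ1 hA hB h h1
  · have := X0_pos (t := -t) hρ0 hρ1 hA hB (by linarith) (by linarith)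
    rw [Lam_neg, neg_sq, mul_neg, Lam_neg] at this
    exact this

/-- Same scheme as `e1_lower`.  `Gf ρ u v` is the difference of the two instances `z = v`, `z = ρ v` of `Lam_pair_eq`,
that is `((1+u) (Lam r1 - Lam (ρ r1)) + (1-u) (Lam r2 - Lam (ρ r2)))/2`, `r1 = v/(1+u)`, `r2 = v/(1-u)`.
Apply `X0` at `r1`, `r2`, write `(1-τ)^2 = 1 - 2 τ + τ^2`, `τ (1-τ) = τ - τ^2`, `τ^2 = 1 - r^2`, and use `mul_sqrt_aux` and
`((1+u)(1 - r1^2) + (1-u)(1 - r2^2))/2 = 1 - v^2/(1-u^2)`. -/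
lemma x0_avg {ρ u v : ℝ} (hρ0 : 0 ≤ ρ) (hρ1 : ρ < 1)
    (hA : 1 - ρ ^ 2 ≤ 2 * (Real.log 2 - Lam ρ)) (hB : Real.log 2 - Lam ρ ≤ 1 - ρ ^ 2)
    (huv : |u| + |v| ≤ 1) (hu : |u| < 1) :
    (Real.log 2 - Lam ρ) *
        (1 - 2 * ((Real.sqrt ((1 + u) ^ 2 - v ^ 2) + Real.sqrt ((1 - u) ^ 2 - v ^ 2)) / 2)
          + (1 - v ^ 2 / (1 - u ^ 2)))
      + (1 - ρ ^ 2) *
        ((Real.sqrt ((1 + u) ^ 2 - v ^ 2) + Real.sqrt ((1 - u) ^ 2 - v ^ 2)) / 2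
          - (1 - v ^ 2 / (1 - u ^ 2)))
      ≤ Gf ρ u v := by
  obtain ⟨h1, h2⟩ := abs_lt.mp hu
  have hp : 0 < 1 + u := by linarith
  have hq : 0 < 1 - u := by linarith
  have hv1 : |v| ≤ 1 + u := by have := neg_abs_le u; linarith
  have hv2 : |v| ≤ 1 - u := by have := le_abs_self u; linarith
  obtain ⟨b1, b2⟩ := abs_le.mp hv1
  obtain ⟨b3, b4⟩ := abs_le.mp hv2
  have r1a : -1 ≤ v / (1 + u) := by rw [le_div_iff₀ hp]; linarith
  have r1b : v / (1 + u) ≤ 1 := by rw [div_le_one hp]; exact b2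
  have r2a : -1 ≤ v / (1 - u) := by rw [le_div_iff₀ hq]; linarith
  have r2b : v / (1 - u) ≤ 1 := by rw [div_le_one hq]; exact b4
  have Xp := X0 (t := v / (1 + u)) hρ0 hρ1 hA hB r1a r1b
  have Xq := X0 (t := v / (1 - u)) hρ0 hρ1 hA hB r2a r2b
  have eG : Gf ρ u v = ((1 + u) * Lam (v / (1 + u)) + (1 - u) * Lam (v / (1 - u))) / 2
      - ((1 + u) * Lam (ρ * (v / (1 + u))) + (1 - u) * Lam (ρ * (v / (1 - u)))) / 2 := by
    have e1 := Lam_pair_eq (u := u) (z := v) hu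
    have e2 := Lam_pair_eq (u := u) (z := ρ * v) hu
    rw [mul_div_assoc, mul_div_assoc] at e2
    unfold Gf
    linarith
  rw [eG]
  have s1 := mul_sqrt_aux (v := v) hp
  have s2 := mul_sqrt_aux (v := v) hq
  rw [← s1, ← s2]
  have key : ((1 + u) * (1 - (v / (1 + u)) ^ 2) + (1 - u) * (1 - (v / (1 - u)) ^ 2)) / 2
      = 1 - v ^ 2 / (1 - u ^ 2) := by
    have : (1 - u ^ 2) = (1 + u) * (1 - u) := by ring
    rw [this]
    field_simp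
    ring
  rw [← key]
  have q1 : Real.sqrt (1 - (v / (1 + u)) ^ 2) ^ 2 = 1 - (v / (1 + u)) ^ 2 :=
    Real.sq_sqrt (by nlinarith)
  have q2 : Real.sqrt (1 - (v / (1 - u)) ^ 2) ^ 2 = 1 - (v / (1 - u)) ^ 2 :=
    Real.sq_sqrt (by nlinarith)
  have m1 := mul_le_mul_of_nonneg_left Xp hp.le
  have m2 := mul_le_mul_of_nonneg_left Xq hq.le
  generalize Real.sqrt (1 - (v / (1 + u)) ^ 2) = w1 at m1 q1 ⊢
  generalize Real.sqrt (1 - (v / (1 - u)) ^ 2) = w2 at m2 q2 ⊢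
  rw [← q1, ← q2]
  generalize Real.log 2 - Lam ρ = h at m1 m2 ⊢
  have e : h * (1 - 2 * (((1 + u) * w1 + (1 - u) * w2) / 2)
        + ((1 + u) * w1 ^ 2 + (1 - u) * w2 ^ 2) / 2)
      + (1 - ρ ^ 2) * (((1 + u) * w1 + (1 - u) * w2) / 2
        - ((1 + u) * w1 ^ 2 + (1 - u) * w2 ^ 2) / 2)
      = ((1 + u) * (h * (1 - w1) ^ 2 + (1 - ρ ^ 2) * w1 * (1 - w1))
        + (1 - u) * (h * (1 - w2) ^ 2 + (1 - ρ ^ 2) * w2 * (1 - w2))) / 2 := by ring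
  rw [e]
  linarith

end Vale.Agent.Lib.P322.Pot
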